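import Vale.Agent.P199.CommAlg
import Vale.Agent.P199.Division

/-!
# P199: systems with commuting involutions and the mod 2 multiplicity

A system is a finitely generated complex domain with `m` commuting involutions which is integral
over the subalgebra generated by semi-invariants of nonzero weight.  Its multiplicity lies in the
field of rational functions in `m` variables over `ZMod 2`.  It is defined by cutting with one
semi-invariant of nonzero weight and recursing on the stable height-one primes; no normality is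
required.
-/

namespace Vale.Agent.P199.Mult

open Division (sgn)

variable {m : ℕ}

/-- Weights of semi-invariants. -/
abbrev Wt (m : ℕ) := Fin m → ZMod 2

/-- The value field of the multiplicity. -/
abbrev Fld (m : ℕ) := FractionRing (MvPolynomial (Fin m) (ZMod 2))

/-- A weight as a linear form. -/
noncomputable def lin (w : Wt m) : Fld m :=
  algebraMap (MvPolynomial (Fin m) (ZMod 2)) (Fld m) (∑ i, MvPolynomial.C (w i) * MvPolynomial.X i)

theorem lin_add (u v : Wt m) : lin (u + v) = lin u + lin v := by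
  simp [lin, add_mul, Finset.sum_add_distrib]

@[simp] theorem lin_zero : lin (0 : Wt m) = 0 := by simp [lin]

theorem lin_nsmul (n : ℕ) (u : Wt m) : lin (n • u) = (n : Fld m) * lin u := by
  induction n with
  | zero => simp
  | succ n ih => rw [add_smul, one_smul, lin_add, ih]; push_cast; ring

theorem lin_ne_zero {u : Wt m} (hu : u ≠ 0) : lin u ≠ 0 := by
  classical
  intro h
  obtain ⟨i, hi⟩ := Function.ne_iff.1 hu
  have h' : (∑ j, MvPolynomial.C (u j) * MvPolynomial.X j : MvPolynomial (Fin m) (ZMod 2)) = 0 :=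
    (map_eq_zero_iff _ (IsFractionRing.injective _ (Fld m))).1 h
  have := congrArg (MvPolynomial.eval fun j => if j = i then (1 : ZMod 2) else 0) h'
  simp at this
  exact hi this

theorem two_eq_zero : (2 : Fld m) = 0 := by
  rw [← map_ofNat (algebraMap (MvPolynomial (Fin m) (ZMod 2)) (Fld m)) 2,
    ← map_ofNat MvPolynomial.C 2, show (2 : ZMod 2) = 0 from rfl, map_zero, map_zero]

theorem sgn_add : ∀ a b : ZMod 2, sgn (a + b) = sgn a * sgn b := by decide

theorem sgn_inj : ∀ a b : ZMod 2, sgn a = sgn b → a = b := by decide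

section Semi

variable {R : Type*} [CommRing R] [Algebra ℂ R] (σ : Fin m → R ≃ₐ[ℂ] R)

/-- A semi-invariant of weight `w`. -/
def SemiInv (w : Wt m) (x : R) : Prop := ∀ i, σ i x = (sgn (w i) : R) * x

variable {σ}

theorem SemiInv.one : SemiInv σ 0 (1 : R) := fun i => by simp [sgn]

theorem SemiInv.mul {u v : Wt m} {x y : R} (hx : SemiInv σ u x) (hy : SemiInv σ v y) :
    SemiInv σ (u + v) (x * y) := fun i => by
  rw [map_mul, hx i, hy i, Pi.add_apply, sgn_add, Int.cast_mul]
  ring

theorem SemiInv.pow {u : Wt m} {x : R} (hx : SemiInv σ u x) (n : ℕ) :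
    SemiInv σ (n • u) (x ^ n) := by
  induction n with
  | zero => simpa using SemiInv.one
  | succ n ih => rw [add_smul, one_smul, pow_succ]; exact ih.mul hx

theorem SemiInv.map {S : Type*} [CommRing S] [Algebra ℂ S] {τ : Fin m → S ≃ₐ[ℂ] S} (φ : R →+* S)
    (hφ : ∀ i x, φ (σ i x) = τ i (φ x)) {u : Wt m} {x : R} (hx : SemiInv σ u x) :
    SemiInv τ u (φ x) := fun i => by rw [← hφ, hx i, map_mul, map_intCast]

theorem SemiInv.unique [IsDomain R] {u v : Wt m} {x : R} (hu : SemiInv σ u x) (hv : SemiInv σ v x)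
    (hx : x ≠ 0) : u = v := by
  have : CharZero R := charZero_of_injective_algebraMap (algebraMap ℂ R).injective
  exact funext fun i => sgn_inj _ _ (Int.cast_injective (mul_right_cancel₀ hx ((hu i).symm.trans (hv i))))

/-- An element outside a stable prime has an invariant multiple outside it. -/
theorem exists_invariant_mul (hinv : ∀ i x, σ i (σ i x) = x)
    (hcomm : ∀ i j x, σ i (σ j x) = σ j (σ i x)) (C : Ideal R) [C.IsPrime]
    (hC : ∀ i, C.comap (σ i) = C) {s : R} (hs : s ∉ C) :
    ∃ t, s * t ∉ C ∧ SemiInv σ 0 (s * t) := by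
  classical
  suffices h : ∀ F : Finset (Fin m), ∃ t, s * t ∉ C ∧ ∀ i ∈ F, σ i (s * t) = s * t by
    obtain ⟨t, ht, ht'⟩ := h Finset.univ
    exact ⟨t, ht, fun i => by simp [ht' i (Finset.mem_univ i), sgn]⟩
  intro F
  induction F using Finset.induction_on with
  | empty => exact ⟨1, by simpa using hs, by simp⟩
  | insert j F hj ih =>
    obtain ⟨t, ht, ht'⟩ := ih
    refine ⟨t * σ j (s * t), fun h => ?_, fun i hi => ?_⟩
    · rcases (Ideal.IsPrime.mem_or_mem ‹_› (by rwa [← mul_assoc] at h)) with h | h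
      · exact ht h
      · exact ht ((hC j).le h)
    · rw [← mul_assoc, map_mul]
      rcases Finset.mem_insert.1 hi with rfl | hi
      · rw [hinv, mul_comm]
      · rw [hcomm i j, ht' i hi]

end Semi

/-- A complex domain with `m` commuting involutions, pointed at the fixed points. -/
structure Sys (m : ℕ) : Type 1 where
  /-- The ring. -/
  R : Type
  [cr : CommRing R]
  [dom : IsDomain R]
  [alg : Algebra ℂ R]
  [ft : Algebra.FiniteType ℂ R]
  /-- The involutions. -/
  σ : Fin m → R ≃ₐ[ℂ] R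
  invol : ∀ i x, σ i (σ i x) = x
  comm : ∀ i j x, σ i (σ j x) = σ j (σ i x)
  pointed : ∀ x : R, IsIntegral (Algebra.adjoin ℂ {y : R | ∃ w : Wt m, w ≠ 0 ∧ SemiInv σ w y}) x

attribute [instance] Sys.cr Sys.dom Sys.alg Sys.ft

namespace Sys

variable (S : Sys m)

instance noetherian : IsNoetherianRing S.R := Algebra.FiniteType.isNoetherianRing ℂ S.R

/-- An ideal fixed by every involution. -/
def Stable (C : Ideal S.R) : Prop := ∀ i, C.comap (S.σ i) = C

variable {S}

theorem Stable.map {C : Ideal S.R} (h : S.Stable C) (i : Fin m) :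
    C = C.map (S.σ i : S.R →+* S.R) := by
  refine le_antisymm (fun x hx => ?_) (Ideal.map_le_iff_le_comap.2 (h i).ge)
  have h1 : S.σ i x ∈ C := (h i).ge hx
  have := Ideal.mem_map_of_mem (S.σ i : S.R →+* S.R) h1
  simpa [S.invol] using this

variable (S)

/-- The quotient by a stable prime. -/
noncomputable def quot (C : Ideal S.R) [C.IsPrime] (h : S.Stable C) : Sys m where
  R := S.R ⧸ C
  σ i := Ideal.quotientEquivAlg C C (S.σ i) (h.map i)
  invol i x := by
    obtain ⟨x, rfl⟩ := Ideal.Quotient.mk_surjective x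
    simp [S.invol]
  comm i j x := by
    obtain ⟨x, rfl⟩ := Ideal.Quotient.mk_surjective x
    simp [S.comm i j]
  pointed x := by
    obtain ⟨x, rfl⟩ := Ideal.Quotient.mk_surjective x
    have hx := S.pointed x
    set A := Algebra.adjoin ℂ {y | ∃ w : Wt m, w ≠ 0 ∧ SemiInv S.σ w y}
    have hle : A.map (Ideal.Quotient.mkₐ ℂ C) ≤ Algebra.adjoin ℂ
        {y | ∃ w : Wt m, w ≠ 0 ∧
          SemiInv (fun i => Ideal.quotientEquivAlg C C (S.σ i) (h.map i)) w y} := by
      rw [AlgHom.map_adjoin]
      refine Algebra.adjoin_mono ?_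
      rintro _ ⟨y, ⟨w, hw, hy⟩, rfl⟩
      exact ⟨w, hw, hy.map (Ideal.Quotient.mk C) (fun i z => by simp)⟩
    let φ : A →+* Algebra.adjoin ℂ {y | ∃ w : Wt m, w ≠ 0 ∧
        SemiInv (fun i => Ideal.quotientEquivAlg C C (S.σ i) (h.map i)) w y} :=
      ((Ideal.Quotient.mkₐ ℂ C).toRingHom.comp A.val.toRingHom).codRestrict _
        fun a => hle ⟨a, a.2, rfl⟩
    exact IsIntegral.map_of_comp_eq φ (Ideal.Quotient.mk C) (by ext a; rfl) hx

@[simp] theorem quot_σ_mk (C : Ideal S.R) [C.IsPrime] (h : S.Stable C) (i : Fin m) (x : S.R) :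
    (S.quot C h).σ i (Ideal.Quotient.mk C x) = Ideal.Quotient.mk C (S.σ i x) :=
  rfl

/-- Transcendence degree over `ℂ`. -/
noncomputable def dim : ℕ := (Algebra.trdeg ℂ S.R).toNat

theorem dim_cast : Algebra.trdeg ℂ S.R = S.dim := by
  obtain ⟨d, g, hginj, hgfin⟩ := exists_finite_inj_algHom_of_fg ℂ S.R
  let _ := g.toRingHom.toAlgebra
  have : Module.Finite (MvPolynomial (Fin d) ℂ) S.R := hgfin
  have : FaithfulSMul (MvPolynomial (Fin d) ℂ) S.R :=
    (faithfulSMul_iff_algebraMap_injective _ _).2 hginj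
  have : IsScalarTower ℂ (MvPolynomial (Fin d) ℂ) S.R :=
    IsScalarTower.of_algebraMap_eq fun x => (g.commutes x).symm
  have h : Algebra.trdeg ℂ S.R = (d : Cardinal) := by
    rw [trdeg_eq_of_isIntegral (R := MvPolynomial (Fin d) ℂ), MvPolynomial.trdeg_of_isDomain]
    simp
  simp [dim, h]

/-- The stable primes of height one. -/
abbrev Child : Type := {C : Ideal S.R // C.IsPrime ∧ C.height = 1 ∧ S.Stable C}

instance (C : S.Child) : C.1.IsPrime := C.2.1

/-- The system of a stable height-one prime. -/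
noncomputable def child (C : S.Child) : Sys m := S.quot C.1 C.2.2.2

/-- Order at a prime, counted by length. -/
noncomputable def ordAt (C : Ideal S.R) [C.IsPrime] (x : S.R) : ℕ :=
  (Ring.ord (Localization.AtPrime C) (algebraMap S.R _ x)).toNat

end Sys

open Classical in
/-- The recursion defining the multiplicity. -/
noncomputable def eAux : ℕ → Sys m → Fld m
  | 0, _ => 1
  | d + 1, S =>
    if h : ∃ p : Wt m × S.R, p.1 ≠ 0 ∧ p.2 ≠ 0 ∧ SemiInv S.σ p.1 p.2 then
      (∑ᶠ C : S.Child, (S.ordAt C.1 h.choose.2 : Fld m) * eAux d (S.child C)) / lin h.choose.1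
    else 0

namespace Sys

variable (S : Sys m)

/-- The equivariant multiplicity modulo two. -/
noncomputable def e : Fld m := eAux S.dim S

/-- The cycle of `x` on the stable primes of height one, evaluated by `e`. -/
noncomputable def cyc (x : S.R) : Fld m :=
  ∑ᶠ C : S.Child, (S.ordAt C.1 x : Fld m) * (S.child C).e

theorem e_of_dim_zero (h : S.dim = 0) : S.e = 1 := by rw [e, h, eAux]

theorem bijective_of_dim_zero (h : S.dim = 0) : Function.Bijective (algebraMap ℂ S.R) := by
  have h' : Algebra.trdeg ℂ S.R = 0 := by rw [dim_cast, h]; simp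
  let _ := (isField_of_trdeg_eq_zero h').toField
  have : Algebra.IsAlgebraic ℂ S.R := trdeg_eq_zero_iff.1 h'
  have : Algebra.IsIntegral ℂ S.R := Algebra.IsAlgebraic.isIntegral
  exact IsAlgClosed.algebraMap_bijective_of_isIntegral (k := ℂ) (K := S.R)

theorem weight_eq_zero (h : S.dim = 0) {w : Wt m} {x : S.R} (hx : SemiInv S.σ w x) (hx0 : x ≠ 0) :
    w = 0 := by
  obtain ⟨c, rfl⟩ := (S.bijective_of_dim_zero h).2 x
  exact hx.unique (fun i => by simp [sgn]) hx0

theorem exists_semiInv (h : S.dim ≠ 0) : ∃ p : Wt m × S.R,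
    p.1 ≠ 0 ∧ p.2 ≠ 0 ∧ SemiInv S.σ p.1 p.2 := by
  by_contra hne
  apply h
  have hbot : Algebra.adjoin ℂ {y | ∃ w : Wt m, w ≠ 0 ∧ SemiInv S.σ w y} = ⊥ := by
    rw [eq_bot_iff, Algebra.adjoin_le_iff]
    rintro y ⟨w, hw, hy⟩
    by_cases h0 : y = 0
    · rw [h0]; exact (⊥ : Subalgebra ℂ S.R).zero_mem
    · exact absurd ⟨(w, y), hw, h0, hy⟩ hne
  have hint : Algebra.IsIntegral ℂ S.R := by
    constructor
    intro x
    have hx := S.pointed x
    rw [hbot] at hx
    exact IsIntegral.map_of_comp_eq (Algebra.botEquivOfInjective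
      (algebraMap ℂ S.R).injective).toRingHom (RingHom.id S.R) (by
        ext ⟨a, ha⟩
        obtain ⟨c, rfl⟩ := Algebra.mem_bot.1 ha
        exact congrArg (algebraMap ℂ S.R) ((Algebra.botEquivOfInjective
          (algebraMap ℂ S.R).injective).commutes c)) hx
  have h0 : Algebra.trdeg ℂ S.R = 0 := trdeg_eq_zero
  rw [dim, h0]
  simp

theorem child_dim (C : S.Child) : (S.child C).dim + 1 = S.dim := by
  obtain ⟨f, hf, hf0⟩ := Submodule.exists_mem_ne_zero_of_ne_bot (p := C.1) (fun h => by
    have := C.2.2.1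
    simp [h] at this)
  have : C.1.FiniteHeight := ⟨Or.inr (by rw [C.2.2.1]; exact ENat.one_ne_top)⟩
  have hmin : C.1 ∈ (Ideal.span {f}).minimalPrimes :=
    Ideal.mem_minimalPrimes_of_height_le ((Ideal.span_singleton_le_iff_mem _).2 hf)
      (C.2.2.1.le.trans
        (Ideal.one_le_height_span_singleton_of_mem_nonZeroDivisors (mem_nonZeroDivisors_of_ne_zero hf0)))
  have h := trdeg_minimalPrime (k := ℂ) hf0 hmin
  have h1 : Algebra.trdeg ℂ (S.R ⧸ C.1) = (S.child C).dim := (S.child C).dim_cast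
  rw [h1, S.dim_cast] at h
  exact_mod_cast h

theorem e_spec {d : ℕ} (h : S.dim = d + 1) :
    ∃ (w : Wt m) (f : S.R), w ≠ 0 ∧ f ≠ 0 ∧ SemiInv S.σ w f ∧ lin w * S.e = S.cyc f := by
  have hex := S.exists_semiInv (by omega)
  obtain ⟨h1, h2, h3⟩ := hex.choose_spec
  refine ⟨_, _, h1, h2, h3, ?_⟩
  rw [e, h, eAux, dif_pos hex, mul_div_cancel₀ _ (lin_ne_zero h1), cyc]
  refine finsum_congr fun C => ?_
  rw [e, show (S.child C).dim = d from by have := S.child_dim C; omega]

end Sys

end Vale.Agent.P199.Mult
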