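import Vale.Agent.P199.Mult.Interfaces
import Vale.Agent.P199.Pauli

/-!
# P199: the statement of the T-module

For `q = 2 ^ s ≤ 2 ^ n`: a system with nonzero multiplicity, of small codimension in traceless
matrices, whose matrix satisfies a monic equation of degree `q` with invariant coefficients.
-/

namespace Vale.Agent.P199.Mult

open Pauli Division

/-- The weight of a Pauli coordinate for the involutions of the shifts and the clocks. -/
def J {n : ℕ} (g : Pidx n) : Wt (n + n) := Fin.append g.2 g.1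

/-- The matrix with given Pauli coordinates. -/
noncomputable def matOf {n : ℕ} {R : Type*} [CommRing R] (z : Pidx n → R) :
    Matrix (Idx n) (Idx n) R :=
  ∑ g, z g • castMat R (pauli g)

/-- The T-module. -/
def SigmaStmt : Prop :=
  ∀ n s : ℕ, s ≤ n → ∃ (T : Sys (n + n)) (z : Pidx n → T.R) (c : ℕ → T.R),
    T.e ≠ 0 ∧ 4 ^ n - 1 ≤ T.dim + 4 ^ n / 2 ^ s ∧
    z 0 = 0 ∧ (∀ g, SemiInv T.σ (J g) (z g)) ∧ Algebra.adjoin ℂ (Set.range z) = ⊤ ∧
    (∀ l, SemiInv T.σ 0 (c l)) ∧
    matOf z ^ (2 ^ s) + ∑ l ∈ Finset.range (2 ^ s), c l • matOf z ^ l = 0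

end Vale.Agent.P199.Mult
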