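import Vale.Agent.P199.Mult.Facts
import Vale.Agent.P199.Mult.SigmaStmt
import Vale.Agent.P199.Pole.Ord

/-!
# P199: the coordinate system of traceless matrices, its quotients and the bound on their poles

`S0 n` is the polynomial ring on the nonzero Pauli coordinates with the sign actions.  For a
quotient system we track the order of the multiplicity along a set `S` of the variables: cuts by
semi-invariants of order zero keep it, and it is at least minus the dimension.
-/

namespace Vale.Agent.P199.Mult

open Pauli Division MvPolynomial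

variable {m n : ℕ}

/-- Composition of equivariant maps. -/
noncomputable def Hom.comp {A B C : Sys m} (g : Hom B C) (f : Hom A B) : Hom A C where
  φ := g.φ.comp f.φ
  equiv i x := by simp only [AlgHom.comp_apply, f.equiv, g.equiv]

/-- The quotient map as an equivariant map. -/
noncomputable def Hom.quotMk (A : Sys m) (C : Ideal A.R) [C.IsPrime] (h : A.Stable C) :
    Hom A (A.quot C h) where
  φ := Ideal.Quotient.mkₐ ℂ C
  equiv _ _ := rfl

theorem Hom.quotMk_surjective (A : Sys m) (C : Ideal A.R) [C.IsPrime] (h : A.Stable C) :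
    Function.Surjective (Hom.quotMk A C h).φ :=
  Ideal.Quotient.mk_surjective

theorem nat_cast_eq_one {k : ℕ} (h : (k : Fld m) ≠ 0) : (k : Fld m) = 1 := by
  rcases Nat.even_or_odd' k with ⟨l, rfl | rfl⟩
  · simp [two_eq_zero] at h
  · simp [two_eq_zero]

section pole

variable (S : Set (Fin m))

theorem poleOrd_lin_le_one {w : Wt m} (hw : w ≠ 0) : Pole.poleOrd S (lin w) ≤ 1 := by
  by_cases h : ∃ i, i ∉ S ∧ w i ≠ 0
  · exact (Pole.poleOrd_lin_of_not_subset S h).le.trans (by norm_num)
  · exact (Pole.poleOrd_lin_of_subset S (by simpa using h) hw).le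

/-- Each cut costs at most one pole. -/
theorem neg_dim_le_poleOrd (A : Sys m) : ((-(A.dim : ℤ) : ℤ) : WithTop ℤ) ≤ Pole.poleOrd S A.e := by
  suffices h : ∀ d, ∀ A : Sys m, A.dim = d →
      ((-(d : ℤ) : ℤ) : WithTop ℤ) ≤ Pole.poleOrd S A.e from h _ A rfl
  intro d
  induction d with
  | zero =>
    intro A hA
    rw [A.e_of_dim_zero hA, Pole.poleOrd_one]
    simp
  | succ d ih =>
    intro A hA
    obtain ⟨w, f, hw, hf, -, he⟩ := A.e_spec hA
    have hsum : ((-(d : ℤ) : ℤ) : WithTop ℤ) ≤ Pole.poleOrd S (A.cyc f) := by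
      rw [A.cyc_eq_sum hf]
      refine Pole.le_poleOrd_sum S _ _ _ fun C _ => ?_
      by_cases h0 : (A.ordAt C.1 f : Fld m) = 0
      · simp [h0, Pole.poleOrd_zero]
      · rw [nat_cast_eq_one h0, one_mul]
        exact ih _ (by have := A.child_dim C; omega)
    rw [← he, Pole.poleOrd_mul] at hsum
    by_cases h0 : A.e = 0
    · simp [h0, Pole.poleOrd_zero]
    obtain ⟨k, hk⟩ := WithTop.ne_top_iff_exists.1 (mt (Pole.poleOrd_eq_top_iff S).1 h0)
    obtain ⟨j, hj⟩ := WithTop.ne_top_iff_exists.1
      (mt (Pole.poleOrd_eq_top_iff S).1 (lin_ne_zero hw))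
    have h1 := poleOrd_lin_le_one S hw
    rw [← hj] at h1 hsum
    rw [← hk] at hsum ⊢
    norm_cast at h1 hsum ⊢
    omega

/-- A cut by a semi-invariant of order zero keeps the order of the pole. -/
theorem exists_child (hF : FormStmt) (A : Sys m) (he : A.e ≠ 0) {w : Wt m} {h : A.R}
    (hw : ∃ i, i ∉ S ∧ w i ≠ 0) (hh : h ≠ 0) (hs : SemiInv A.σ w h) :
    ∃ C : A.Child, h ∈ C.1 ∧ (A.child C).e ≠ 0 ∧
      Pole.poleOrd S (A.child C).e ≤ Pole.poleOrd S A.e := by
  have hw0 : w ≠ 0 := by
    rintro rfl
    simp at hw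
  have hc := hF A w h hh hs
  rw [A.cyc_eq_sum hh] at hc
  obtain ⟨C, hC, hC0, hle⟩ := Pole.exists_poleOrd_le_of_sum S
    (hc ▸ mul_ne_zero (lin_ne_zero hw0) he)
  simp only [← hc] at hle
  refine ⟨C, by simpa using hC, right_ne_zero_of_mul hC0, ?_⟩
  have hz : Pole.poleOrd S (lin w) = 0 := Pole.poleOrd_lin_of_not_subset S hw
  rwa [Pole.poleOrd_mul S (lin w), hz, zero_add, nat_cast_eq_one (left_ne_zero_of_mul hC0),
    one_mul] at hle

end pole

/-- The nonzero Pauli indices. -/
abbrev Pnz (n : ℕ) := {g : Pidx n // g ≠ 0}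

/-- The ring of coordinates of traceless matrices. -/
abbrev R0 (n : ℕ) := MvPolynomial (Pnz n) ℂ

theorem J_injective : Function.Injective (J : Pidx n → Wt (n + n)) := fun g h e =>
  Prod.ext (funext fun i => by
      have h1 := congrFun e (Fin.natAdd n i)
      rwa [J, J, Fin.append_right, Fin.append_right] at h1)
    (funext fun i => by
      have h1 := congrFun e (Fin.castAdd n i)
      rwa [J, J, Fin.append_left, Fin.append_left] at h1)

theorem J_zero : J (0 : Pidx n) = 0 := by
  funext i
  refine Fin.addCases (fun a => ?_) (fun a => ?_) i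
  · rw [J, Fin.append_left]; rfl
  · rw [J, Fin.append_right]; rfl

theorem J_ne_zero (g : Pnz n) : J g.1 ≠ 0 := fun h => g.2 (J_injective (h.trans J_zero.symm))

/-- The sign action on the coordinates. -/
noncomputable def act (i : Fin (n + n)) : R0 n →ₐ[ℂ] R0 n :=
  aeval fun g => (sgn (J g.1 i) : R0 n) * X g

theorem act_act (i j : Fin (n + n)) (g : Pnz n) :
    act i (act j (X g)) = (sgn (J g.1 i) : R0 n) * (sgn (J g.1 j) : R0 n) * X g := by
  simp [act]
  ring

theorem act_invol (i : Fin (n + n)) : (act (n := n) i).comp (act i) = AlgHom.id ℂ _ :=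
  MvPolynomial.algHom_ext fun g => by
    rw [AlgHom.comp_apply, act_act, ← Int.cast_mul, sgn_mul_self, Int.cast_one, one_mul]
    rfl

theorem act_comm (i j : Fin (n + n)) : (act (n := n) i).comp (act j) = (act j).comp (act i) :=
  MvPolynomial.algHom_ext fun g => by
    rw [AlgHom.comp_apply, AlgHom.comp_apply, act_act, act_act]
    ring

/-- The coordinate system. -/
noncomputable abbrev S0 (n : ℕ) : Sys (n + n) where
  R := R0 n
  σ i := AlgEquiv.ofAlgHom (act i) (act i) (act_invol i) (act_invol i)
  invol i x := AlgHom.congr_fun (act_invol i) x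
  comm i j x := AlgHom.congr_fun (act_comm i j) x
  pointed x := by
    have htop : Algebra.adjoin ℂ {y : R0 n | ∃ w : Wt (n + n), w ≠ 0 ∧ SemiInv
        (fun i => AlgEquiv.ofAlgHom (act i) (act i) (act_invol i) (act_invol i)) w y} = ⊤ := by
      rw [eq_top_iff, ← MvPolynomial.adjoin_range_X, Algebra.adjoin_le_iff]
      rintro _ ⟨g, rfl⟩
      exact Algebra.subset_adjoin ⟨J g.1, J_ne_zero g, fun i => by simp [act]⟩
    exact isIntegral_algebraMap (x := (⟨x, htop ▸ Algebra.mem_top⟩ : Algebra.adjoin ℂ
      {y : R0 n | ∃ w : Wt (n + n), w ≠ 0 ∧ SemiInv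
        (fun i => AlgEquiv.ofAlgHom (act i) (act i) (act_invol i) (act_invol i)) w y}))

/-- A coordinate in the system. -/
noncomputable abbrev var (g : Pnz n) : (S0 n).R := X (R := ℂ) g

theorem semiInv_var (g : Pnz n) : SemiInv (S0 n).σ (J g.1) (var g) := fun i => by
  show act i (X g) = _
  simp [act]

/-- The ideal of the coordinates in `s`. -/
noncomputable def coordIdeal (s : Set (Pnz n)) : Ideal (S0 n).R := Ideal.span (var '' s)

theorem coordIdeal_stable (s : Set (Pnz n)) : (S0 n).Stable (coordIdeal s) := by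
  have hle : ∀ i, coordIdeal s ≤ (coordIdeal s).comap ((S0 n).σ i) := fun i =>
    Ideal.span_le.2 (by
      rintro _ ⟨g, hg, rfl⟩
      rw [SetLike.mem_coe, Ideal.mem_comap, semiInv_var g i]
      exact Ideal.mul_mem_left _ _ (Ideal.subset_span ⟨g, hg, rfl⟩))
  refine fun i => le_antisymm (fun x hx => ?_) (hle i)
  have := hle i (Ideal.mem_comap.1 hx)
  rwa [Ideal.mem_comap, (S0 n).invol] at this

open Classical in
theorem coordIdeal_isPrime (s : Set (Pnz n)) : (coordIdeal s).IsPrime := by
  let π : R0 n →ₐ[ℂ] R0 n := aeval fun g => if g ∈ s then 0 else X g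
  have hsub : ∀ p : R0 n, p - π p ∈ coordIdeal s := by
    intro p
    induction p using MvPolynomial.induction_on with
    | C a => simp [π]
    | add p q hp hq =>
      rw [map_add, add_sub_add_comm]
      exact (coordIdeal s).add_mem hp hq
    | mul_X p g hp =>
      rw [map_mul, show π (X g) = if g ∈ s then 0 else X g from aeval_X _ _]
      split_ifs with hg
      · rw [mul_zero, sub_zero]
        exact Ideal.mul_mem_left (coordIdeal s) p (Ideal.subset_span ⟨g, hg, rfl⟩)
      · rw [← sub_mul]
        exact Ideal.mul_mem_right _ (coordIdeal s) hp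
  have : coordIdeal s = RingHom.ker π := by
    refine le_antisymm (Ideal.span_le.2 ?_) fun p hp => ?_
    · rintro _ ⟨g, hg, rfl⟩
      show π (X g) = 0
      simp [π, hg]
    · have := hsub p
      rwa [(RingHom.mem_ker.1 hp : π p = 0), sub_zero] at this
  rw [this]
  exact RingHom.ker_isPrime _

instance (s : Set (Pnz n)) : (coordIdeal s).IsPrime := coordIdeal_isPrime s

variable (S : Set (Fin (n + n)))

open Classical in
/-- The number of the coordinates in `A` of order one. -/
noncomputable def count (A : Finset (Pnz n)) : ℕ :=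
  (A.filter fun g => ∀ i, i ∉ S → J g.1 i = 0).card

/-- The multiplicity of a coordinate subspace. -/
theorem e_coord (hF : FormStmt) (A : Finset (Pnz n)) (T : Sys (n + n)) (f : Hom (S0 n) T)
    (hf : Function.Surjective f.φ) (hk : RingHom.ker f.φ = coordIdeal (↑A)ᶜ) :
    T.dim = A.card ∧ T.e ≠ 0 ∧ Pole.poleOrd S T.e = ((-(count S A : ℤ) : ℤ) : WithTop ℤ) := by
  classical
  induction A using Finset.induction_on generalizing T with
  | empty =>
    have hs : Function.Surjective (algebraMap ℂ T.R) := by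
      intro x
      obtain ⟨p, rfl⟩ := hf x
      induction p using MvPolynomial.induction_on with
      | C a => exact ⟨a, (f.φ.commutes a).symm⟩
      | add p q hp hq =>
        obtain ⟨a, ha⟩ := hp
        obtain ⟨b, hb⟩ := hq
        exact ⟨a + b, by rw [map_add, ha, hb]; exact (map_add f.φ p q).symm⟩
      | mul_X p g _ =>
        refine ⟨0, ?_⟩
        have : f.φ (var g) = 0 := RingHom.mem_ker.1 (hk ▸ Ideal.subset_span ⟨g, by simp, rfl⟩)
        rw [map_zero]
        refine ((map_mul f.φ p (var g)).trans ?_).symm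
        rw [this, mul_zero]
    have hd : T.dim = 0 := by
      have h := trdeg_le_of_surjective (Algebra.ofId ℂ T.R) hs
      rw [trdeg_eq_zero (R := ℂ) (A := ℂ), T.dim_cast] at h
      exact_mod_cast nonpos_iff_eq_zero.1 h
    refine ⟨by simpa using hd, by simp [T.e_of_dim_zero hd], ?_⟩
    simp [T.e_of_dim_zero hd, Pole.poleOrd_one, count]
  | insert a B ha ih =>
    set x := f.φ (var a) with hxdef
    have hx0 : x ≠ 0 := by
      intro h
      have h1 : var a ∈ coordIdeal (↑(insert a B) : Set (Pnz n))ᶜ := hk ▸ RingHom.mem_ker.2 h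
      have h2 : coordIdeal (↑(insert a B) : Set (Pnz n))ᶜ ≤
          RingHom.ker (aeval fun g => if g = a then (1 : ℂ) else 0 : R0 n →ₐ[ℂ] ℂ) := by
        refine Ideal.span_le.2 ?_
        rintro _ ⟨g, hg, rfl⟩
        have : g ≠ a := fun h => hg (by simp [h])
        show aeval (fun g => if g = a then (1 : ℂ) else 0) (X g) = 0
        simp [this]
      have := RingHom.mem_ker.1 (h2 h1)
      simp at this
    have hsemi : SemiInv T.σ (J a.1) x := (semiInv_var a).map (f.φ : (S0 n).R →+* T.R) f.equiv
    have hcomap : Ideal.comap f.φ (Ideal.span {x}) = coordIdeal (↑B : Set (Pnz n))ᶜ := by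
      rw [hxdef, ← Set.image_singleton, ← Ideal.map_span, Ideal.comap_map_of_surjective _ hf]
      show Ideal.span {var a} ⊔ RingHom.ker f.φ = _
      rw [hk, coordIdeal, coordIdeal, ← Ideal.span_union]
      congr 1
      rw [← Set.image_singleton, ← Set.image_union]
      congr 1
      ext g
      by_cases hga : g = a <;> simp [hga, ha]
    have hPp : (Ideal.span {x}).IsPrime := by
      have h := coordIdeal_isPrime (↑B : Set (Pnz n))ᶜ
      rw [← hcomap] at h
      rw [← Ideal.map_comap_of_surjective _ hf (Ideal.span {x})]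
      exact Ideal.map_isPrime_of_surjective hf (fun y hy => Ideal.mem_comap.2 (by
        rw [show f.φ y = 0 from hy]; exact Ideal.zero_mem _))
    have hPh : (Ideal.span {x}).height = 1 := by
      refine le_antisymm ?_
        (Ideal.one_le_height_span_singleton_of_mem_nonZeroDivisors (mem_nonZeroDivisors_of_ne_zero hx0))
      exact Ideal.height_le_one_of_isPrincipal_of_mem_minimalPrimes _ _
        (by rw [@Ideal.minimalPrimes_eq_subsingleton_self _ _ _ hPp]; exact Set.mem_singleton _)
    have hPs : T.Stable (Ideal.span {x}) := by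
      have hle : ∀ i, Ideal.span {x} ≤ (Ideal.span {x}).comap (T.σ i) := fun i => by
        rw [Ideal.span_singleton_le_iff_mem, Ideal.mem_comap, hsemi i]
        exact Ideal.mul_mem_left _ _ (Ideal.mem_span_singleton_self x)
      refine fun i => le_antisymm (fun y hy => ?_) (hle i)
      have := hle i (Ideal.mem_comap.1 hy)
      rwa [Ideal.mem_comap, T.invol] at this
    let C : T.Child := ⟨Ideal.span {x}, hPp, hPh, hPs⟩
    have huniq : ∀ C' : T.Child, x ∈ C'.1 → C' = C := fun C' hC' => by
      have : C'.1.FiniteHeight := ⟨Or.inr (by rw [C'.2.2.1]; exact ENat.one_ne_top)⟩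
      have h := Ideal.mem_minimalPrimes_of_height_le ((Ideal.span_singleton_le_iff_mem _).2 hC')
        (C'.2.2.1.le.trans hPh.ge)
      rw [Ideal.minimalPrimes_eq_subsingleton_self] at h
      exact Subtype.ext h
    have hord : T.ordAt C.1 x = 1 := by
      rw [Sys.ordAt, Ring.ord, Module.length_eq_one_iff.2 ?_, ENat.toNat_one]
      rw [← Set.image_singleton, ← Ideal.map_span, Localization.AtPrime.map_eq_maximalIdeal,
        isSimpleModule_iff_isCoatom]
      exact (IsLocalRing.maximalIdeal.isMaximal _).out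
    let g : Hom (S0 n) (T.child C) := (Hom.quotMk T C.1 hPs).comp f
    have hgk : RingHom.ker g.φ = coordIdeal (↑B : Set (Pnz n))ᶜ := by
      rw [← hcomap]
      ext y
      exact Ideal.Quotient.eq_zero_iff_mem
    obtain ⟨hdim, he, hpo⟩ := ih (T.child C) g ((Hom.quotMk_surjective T C.1 hPs).comp hf) hgk
    have hc : lin (J a.1) * T.e = (T.child C).e := by
      rw [hF T _ x hx0 hsemi, T.cyc_eq_sum hx0, Finset.sum_eq_single_of_mem C
        (by rw [Set.Finite.mem_toFinset]; exact Ideal.mem_span_singleton_self x)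
        (fun C' hC' hne => absurd (huniq C' (by rw [Set.Finite.mem_toFinset] at hC'; exact hC')) hne),
        hord,
        Nat.cast_one, one_mul]
    have he0 : T.e ≠ 0 := right_ne_zero_of_mul (hc ▸ he)
    refine ⟨?_, he0, ?_⟩
    · rw [Finset.card_insert_of_notMem ha, ← hdim, T.child_dim C]
    obtain ⟨k, hk'⟩ := WithTop.ne_top_iff_exists.1 (mt (Pole.poleOrd_eq_top_iff S).1 he0)
    rw [← hc, Pole.poleOrd_mul, ← hk'] at hpo
    rw [← hk', count, Finset.filter_insert]
    by_cases hL : ∀ i, i ∉ S → J a.1 i = 0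
    · have hl : Pole.poleOrd S (lin (J a.1)) = 1 :=
        Pole.poleOrd_lin_of_subset S hL (J_ne_zero a)
      rw [hl, count] at hpo
      rw [if_pos hL, Finset.card_insert_of_notMem (by simp [ha])]
      norm_cast at hpo ⊢
      omega
    · have hl : Pole.poleOrd S (lin (J a.1)) = 0 :=
        Pole.poleOrd_lin_of_not_subset S (by simpa using hL)
      rw [hl, zero_add, count] at hpo
      rw [if_neg hL]
      exact hpo

/-- The coordinates of order one. -/
def outside : Set (Pnz n) := {g | ¬ ∀ i, i ∉ S → J g.1 i = 0}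

/-- A quotient with the full pole contains the coordinate subspace of the order. -/
theorem ker_le_of_poleOrd (hF : FormStmt) (T : Sys (n + n)) (f : Hom (S0 n) T)
    (hf : Function.Surjective f.φ) (he : T.e ≠ 0)
    (hp : Pole.poleOrd S T.e ≤ ((-(count S Finset.univ : ℤ) : ℤ) : WithTop ℤ)) :
    RingHom.ker f.φ ≤ coordIdeal (outside S) := by
  classical
  induction hd : T.dim using Nat.strong_induction_on generalizing T with
  | _ d ih =>
    by_cases hex : ∃ g ∈ outside S, f.φ (var g) ≠ 0
    · obtain ⟨g, hg, hg0⟩ := hex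
      obtain ⟨C, -, he', hle⟩ := exists_child S hF T he
        (w := J g.1) (by simpa [outside] using hg) hg0
        ((semiInv_var g).map (f.φ : (S0 n).R →+* T.R) f.equiv)
      refine le_trans (fun y hy => ?_) (ih _ (by have := T.child_dim C; omega) (T.child C)
        ((Hom.quotMk T C.1 C.2.2.2).comp f) ((Hom.quotMk_surjective T C.1 C.2.2.2).comp hf) he'
        (hle.trans hp) rfl)
      show Ideal.Quotient.mkₐ ℂ C.1 (f.φ y) = 0
      rw [show f.φ y = 0 from hy, map_zero]
    simp only [not_exists, not_and, not_not] at hex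
    have hPk : coordIdeal (outside S) ≤ RingHom.ker f.φ := Ideal.span_le.2 (by
      rintro _ ⟨g, hg, rfl⟩
      exact hex g hg)
    let A : Finset (Pnz n) := Finset.univ.filter fun g => ∀ i, i ∉ S → J g.1 i = 0
    have hA : (↑A : Set (Pnz n))ᶜ = outside S := by
      ext g
      simp [A, outside]
    let P := (S0 n).quot (coordIdeal (outside S)) (coordIdeal_stable _)
    obtain ⟨hPd, -, -⟩ := e_coord S hF A P (Hom.quotMk (S0 n) _ (coordIdeal_stable _))
      (Hom.quotMk_surjective _ _ _) (by rw [hA]; exact Ideal.mk_ker)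
    have hlow : count S Finset.univ ≤ T.dim := by
      obtain ⟨k, hk⟩ := WithTop.ne_top_iff_exists.1 (mt (Pole.poleOrd_eq_top_iff S).1 he)
      have h2 := neg_dim_le_poleOrd S T
      rw [← hk] at hp h2
      norm_cast at hp h2
      omega
    let ψ : P.R →ₐ[ℂ] T.R := Ideal.Quotient.liftₐ _ f.φ fun y hy => hPk hy
    have hψs : Function.Surjective ψ := fun y => by
      obtain ⟨p, rfl⟩ := hf y
      exact ⟨Ideal.Quotient.mk _ p, rfl⟩
    have hinj : RingHom.ker ψ = ⊥ := by
      by_contra hne
      have : (RingHom.ker ψ).IsPrime := RingHom.ker_isPrime ψ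
      have hlt := trdeg_quotient_lt (k := ℂ) hne
      rw [(Ideal.quotientKerAlgEquivOfSurjective hψs).trdeg_eq, T.dim_cast, P.dim_cast, hPd] at hlt
      have : T.dim < A.card := by exact_mod_cast hlt
      have hA2 : A.card = count S Finset.univ := by
        simp only [A, count]
      omega
    intro y hy
    refine Ideal.Quotient.eq_zero_iff_mem.1 ?_
    let q : P.R := Ideal.Quotient.mk (coordIdeal (outside S)) y
    have : q ∈ RingHom.ker ψ := hy
    rw [hinj, Ideal.mem_bot] at this
    exact this

/-- Successive cuts which keep the pole. -/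
theorem exists_cut (hF : FormStmt) {α : Type*} (D : Finset α) (w : α → Wt (n + n))
    (h : α → (S0 n).R)
    (hD : ∀ a ∈ D, (∃ i, i ∉ S ∧ w a i ≠ 0) ∧ SemiInv (S0 n).σ (w a) (h a)) :
    ∃ (T : Sys (n + n)) (f : Hom (S0 n) T), Function.Surjective f.φ ∧ T.e ≠ 0 ∧
      Pole.poleOrd S T.e ≤ ((-(count S Finset.univ : ℤ) : ℤ) : WithTop ℤ) ∧
      (∀ a ∈ D, f.φ (h a) = 0) ∧ Fintype.card (Pnz n) ≤ T.dim + D.card := by
  classical
  induction D using Finset.induction_on with
  | empty =>
    obtain ⟨hd, he, hp⟩ := e_coord S hF Finset.univ (S0 n) ⟨AlgHom.id ℂ _, fun _ _ => rfl⟩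
      Function.surjective_id (by
        rw [Finset.coe_univ, Set.compl_univ, coordIdeal, Set.image_empty, Ideal.span_empty]
        exact (RingHom.injective_iff_ker_eq_bot _).1 Function.injective_id)
    exact ⟨S0 n, ⟨AlgHom.id ℂ _, fun _ _ => rfl⟩, Function.surjective_id, he, hp.le, by simp,
      by simp [hd]⟩
  | insert a D ha ih =>
    obtain ⟨T, f, hf, he, hp, h0, hdim⟩ := ih fun b hb => hD b (Finset.mem_insert_of_mem hb)
    rw [Finset.card_insert_of_notMem ha]
    by_cases hz : f.φ (h a) = 0
    · exact ⟨T, f, hf, he, hp, Finset.forall_mem_insert .. |>.2 ⟨hz, h0⟩, by omega⟩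
    obtain ⟨C, hC, he', hle⟩ := exists_child S hF T he (hD a (Finset.mem_insert_self ..)).1 hz
      ((hD a (Finset.mem_insert_self ..)).2.map (f.φ : (S0 n).R →+* T.R) f.equiv)
    refine ⟨T.child C, (Hom.quotMk T C.1 C.2.2.2).comp f,
      (Hom.quotMk_surjective T C.1 C.2.2.2).comp hf, he', hle.trans hp, ?_,
      by have := T.child_dim C; omega⟩
    refine (Finset.forall_mem_insert ..).2 ⟨Ideal.Quotient.eq_zero_iff_mem.2 hC, fun b hb => ?_⟩
    show Ideal.Quotient.mkₐ ℂ C.1 (f.φ (h b)) = 0
    rw [h0 b hb, map_zero]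

end Vale.Agent.P199.Mult
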