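import Vale.Agent.P199.Mult.Local

/-!
# P199: symbols at codimension two and the children of a child
-/

namespace Vale.Agent.P199.Mult

variable {m : ℕ}

/-- A bijective extension has degree one. -/
theorem FinExt.deg_of_bijective {S T : Sys m} (E : FinExt S T) (h : Function.Bijective E.φ) :
    E.deg = 1 := by
  rw [FinExt.deg]
  let _ := E.φ.toRingHom.toAlgebra
  rw [← (LinearEquiv.ofBijective (Algebra.linearMap S.R T.R) h).finrank_eq, Module.finrank_self]

namespace Sys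

variable {S : Sys m}

/-- The divisor of a stable prime of height one below `Q`. -/
def Child.below (C : S.Child) (Q : S.Codim2) (h : C.1 ≤ Q.1) : {C : S.Div // C.1 ≤ Q.1} :=
  ⟨C.toDiv, h⟩

/-- A child of a child as a codimension-two prime. -/
noncomputable def Child.codim2 (C : S.Child) (P : (S.child C).Child) : S.Codim2 := by
  refine ⟨P.1.comap (Ideal.Quotient.mkₐ ℂ C.1 : S.R →ₐ[ℂ] S.R ⧸ C.1), Ideal.IsPrime.comap _,
    fun i => Ideal.ext fun x => ?_, ?_⟩
  · change Ideal.Quotient.mk C.1 (S.σ i x) ∈ P.1 ↔ Ideal.Quotient.mk C.1 x ∈ P.1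
    exact SetLike.ext_iff.1 (P.2.2.2 i) (Ideal.Quotient.mk C.1 x)
  · have h1 := S.qdim_div C.2.2.1
    have h2 : (S.child C).qdim P.1 + 1 = S.qdim C.1 := (S.child C).qdim_div P.2.2.1
    suffices h : S.qdim (P.1.comap (Ideal.Quotient.mkₐ ℂ C.1 : S.R →ₐ[ℂ] S.R ⧸ C.1))
        = (S.child C).qdim P.1 by omega
    let Q := P.1.comap (Ideal.Quotient.mkₐ ℂ C.1 : S.R →ₐ[ℂ] S.R ⧸ C.1)
    let φ : (S.R ⧸ Q) →ₐ[ℂ] (S.R ⧸ C.1) ⧸ P.1 :=
      Ideal.quotientMapₐ P.1 (Ideal.Quotient.mkₐ ℂ C.1 : S.R →ₐ[ℂ] S.R ⧸ C.1) le_rfl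
    have hb : Function.Bijective φ := by
      refine ⟨Ideal.quotientMap_injective, fun y : (S.R ⧸ C.1) ⧸ (P.1 : Ideal (S.R ⧸ C.1)) => ?_⟩
      induction y using Submodule.Quotient.induction_on with | H y => ?_
      obtain ⟨y, rfl⟩ := Ideal.Quotient.mk_surjective y
      exact ⟨Ideal.Quotient.mk Q y, rfl⟩
    exact congrArg Cardinal.toNat (AlgEquiv.ofBijective φ hb).trdeg_eq

theorem Child.le_codim2 (C : S.Child) (P : (S.child C).Child) : C.1 ≤ (C.codim2 P).1 := by
  intro x hx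
  change Ideal.Quotient.mk C.1 x ∈ P.1
  rw [Ideal.Quotient.eq_zero_iff_mem.2 hx]
  exact P.1.zero_mem

theorem Child.codim2_bijective (C : S.Child) :
    Function.Bijective fun P => (⟨C.codim2 P, C.le_codim2 P⟩ : {Q : S.Codim2 // C.1 ≤ Q.1}) := by
  refine ⟨fun P P' h => ?_, fun ⟨Q, hQ⟩ => ?_⟩
  · have h' := congrArg (fun Q : {Q : S.Codim2 // C.1 ≤ Q.1} => Q.1.1) h
    exact Subtype.ext (Ideal.comap_injective_of_surjective _ Ideal.Quotient.mk_surjective h')
  · let P : Ideal (S.child C).R := Q.1.map (Ideal.Quotient.mk C.1)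
    have hker : RingHom.ker (Ideal.Quotient.mk C.1) ≤ Q.1 := by rw [Ideal.mk_ker]; exact hQ
    have hP : P.IsPrime := Ideal.map_isPrime_of_surjective Ideal.Quotient.mk_surjective hker
    have hcomap : P.comap (Ideal.Quotient.mk C.1) = Q.1 := by
      change (Q.1.map (Ideal.Quotient.mk C.1)).comap (Ideal.Quotient.mk C.1) = Q.1
      refine (Ideal.comap_map_of_surjective _ Ideal.Quotient.mk_surjective _).trans ?_
      rw [← RingHom.ker_eq_comap_bot, sup_eq_left.2 hker]
    have hs : (S.child C).Stable P := fun i =>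
      Ideal.comap_injective_of_surjective _ Ideal.Quotient.mk_surjective (by
        refine Eq.trans ?_ hcomap.symm
        ext x
        change (S.child C).σ i (Ideal.Quotient.mk C.1 x) ∈ P ↔ _
        exact (SetLike.ext_iff.1 hcomap (S.σ i x)).trans (SetLike.ext_iff.1 (Q.2.2.1 i) x))
    have h1 := S.qdim_div C.2.2.1
    have h3 := Q.2.2.2
    have hq : (S.child C).qdim P = S.qdim Q.1 :=
      congrArg Cardinal.toNat (DoubleQuot.quotQuotEquivQuotOfLEₐ ℂ hQ).trdeg_eq
    have hne : P ≠ ⊥ := by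
      intro h
      have h' : Q.1 = C.1 := hcomap.symm.trans ((congrArg (Ideal.comap (Ideal.Quotient.mk C.1)) h).trans
        ((RingHom.ker_eq_comap_bot _).symm.trans Ideal.mk_ker))
      rw [h'] at h3
      omega
    refine ⟨⟨P, hP, (S.child C).height_eq_one hne ?_, hs⟩, Subtype.ext (Subtype.ext hcomap)⟩
    change S.qdim C.1 ≤ _
    omega

/-- The child of a child is the quotient by the codimension-two prime. -/
noncomputable def Child.ext2 (C : S.Child) (P : (S.child C).Child) :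
    FinExt (S.quot (C.codim2 P).1 (C.codim2 P).2.2.1) ((S.child C).child P) where
  φ := Ideal.quotientMapₐ P.1 (Ideal.Quotient.mkₐ ℂ C.1 : S.R →ₐ[ℂ] S.R ⧸ C.1) le_rfl
  equiv i x := by
    obtain ⟨x, rfl⟩ := Ideal.Quotient.mk_surjective x
    rfl
  inj := Ideal.quotientMap_injective
  fin := RingHom.Finite.of_surjective _ fun y => by
    obtain ⟨y, rfl⟩ := Ideal.Quotient.mk_surjective y
    obtain ⟨y, rfl⟩ := Ideal.Quotient.mk_surjective y
    exact ⟨Ideal.Quotient.mk _ y, rfl⟩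

theorem Child.ext2_deg (C : S.Child) (P : (S.child C).Child) : (C.ext2 P).deg = 1 :=
  FinExt.deg_of_bijective _ ⟨(C.ext2 P).inj, fun y => by
    obtain ⟨y, rfl⟩ := Ideal.Quotient.mk_surjective y
    obtain ⟨y, rfl⟩ := Ideal.Quotient.mk_surjective y
    exact ⟨Ideal.Quotient.mk _ y, rfl⟩⟩

variable [IsIntegrallyClosed S.R]

/-- The order at a child of a child is an order on a curve. -/
theorem Child.ordAt_codim2 (C : S.Child) (P : (S.child C).Child) (x : S.R) :
    ((S.child C).ordAt P.1 (Ideal.Quotient.mk C.1 x) : ℤ) =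
      Recip.pOrd ((C.codim2 P).curve (C.below _ (C.le_codim2 P)))
        (algebraMap S.R (C.codim2 P).loc x) := by
  let Q := C.codim2 P
  let I := C.1.map (algebraMap S.R Q.loc)
  change ((S.child C).ordAt P.1 (Ideal.Quotient.mk C.1 x) : ℤ) =
    (((Ring.ord (Q.loc ⧸ I) (Ideal.Quotient.mk I (algebraMap S.R Q.loc x))).toNat : ℕ) : ℤ)
  have hM : Algebra.algebraMapSubmonoid (S.R ⧸ C.1) Q.1.primeCompl = P.1.primeCompl := by
    ext y
    constructor
    · rintro ⟨z, hz, rfl⟩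
      exact hz
    · intro hy
      obtain ⟨z, rfl⟩ := Ideal.Quotient.mk_surjective y
      exact ⟨z, hy, rfl⟩
  let P1 : Ideal (S.R ⧸ C.1) := P.1
  have : P1.IsPrime := P.2.1
  have h1 : IsLocalization P1.primeCompl (Q.loc ⧸ I) := hM ▸ inferInstance
  let e := IsLocalization.algEquiv P1.primeCompl (Localization.AtPrime P1) (Q.loc ⧸ I)
  change (((Ring.ord (Localization.AtPrime P1)
    (algebraMap (S.R ⧸ C.1) _ (Ideal.Quotient.mk C.1 x))).toNat : ℕ) : ℤ) = _
  rw [← ord_ringEquiv e.toRingEquiv]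
  congr 3
  exact e.commutes (Ideal.Quotient.mk C.1 x)

/-- A relation with elements outside the divisor. -/
theorem exists_rel_div (C : S.Div) {u v : S.R} (hu : u ≠ 0) (hv : v ≠ 0)
    (h : S.ordAt C.1 u = S.ordAt C.1 v) : ∃ w z, w ∉ C.1 ∧ z ∉ C.1 ∧ u * z = v * w := by
  have := isDiscreteValuationRing_atPrime C.1 C.2.2
  have hinj := IsLocalization.injective (Localization.AtPrime C.1) C.1.primeCompl_le_nonZeroDivisors
  have hord : ∀ {x : S.R}, x ≠ 0 → (S.ordAt C.1 x : ℕ∞) =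
      Ring.ord (Localization.AtPrime C.1) (algebraMap S.R _ x) := fun hx =>
    ENat.natCast_toNat (Ring.ord_ne_top
      (mem_nonZeroDivisors_of_ne_zero ((map_ne_zero_iff _ hinj).2 hx)))
  have h1 : Ring.ord (Localization.AtPrime C.1) (algebraMap S.R _ v) =
      Ring.ord (Localization.AtPrime C.1) (algebraMap S.R _ u) := by rw [← hord hu, ← hord hv, h]
  rw [Ring.ord_eq_addVal, Ring.ord_eq_addVal] at h1
  obtain ⟨c, hc⟩ := (IsDiscreteValuationRing.addVal_eq_iff_associated _ _).mp h1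
  obtain ⟨⟨w, z⟩, hwz⟩ := IsLocalization.surj C.1.primeCompl (c : Localization.AtPrime C.1)
  refine ⟨w, z, fun hw => ?_, z.2, hinj ?_⟩
  · have : IsUnit (algebraMap S.R (Localization.AtPrime C.1) w) := by
      rw [← hwz]
      exact c.isUnit.mul (IsLocalization.map_units _ z)
    exact (IsLocalization.AtPrime.isUnit_to_map_iff _ C.1 w).mp this hw
  · rw [map_mul, map_mul, ← hwz, ← hc]
    ring

theorem ordAt_pow (C : S.Div) {x : S.R} (hx : x ≠ 0) (n : ℕ) :
    S.ordAt C.1 (x ^ n) = n * S.ordAt C.1 x := by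
  induction n with
  | zero =>
    rw [pow_zero, zero_mul]
    exact S.ordAt_of_notMem fun h => C.2.1.ne_top ((Ideal.eq_top_iff_one _).2 h)
  | succ n ih => rw [pow_succ, S.ordAt_mul C (pow_ne_zero n hx) hx, ih]; ring

theorem exists_tame_rel (C : S.Div) {f g : S.R} (hf : f ≠ 0) (hg : g ≠ 0) :
    ∃ w z, w ∉ C.1 ∧ z ∉ C.1 ∧ f ^ S.ordAt C.1 g * z = g ^ S.ordAt C.1 f * w :=
  exists_rel_div C (pow_ne_zero _ hf) (pow_ne_zero _ hg)
    (by rw [ordAt_pow C hf, ordAt_pow C hg, mul_comm])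

/-- The symbol is invariant under the involutions. -/
theorem Codim2.symb_divMap (Q : S.Codim2) {a b : Wt m} {f g : S.R} (ha : SemiInv S.σ a f)
    (hb : SemiInv S.σ b g) (hf : f ≠ 0) (hg : g ≠ 0) (i : Fin m) (C : S.Div) :
    Q.symb f g (divMap i C) = Q.symb f g C := by
  have hmem : (divMap i C).1 ≤ Q.1 ↔ C.1 ≤ Q.1 := by
    constructor <;> intro h x hx
    · have := h (show S.σ i x ∈ (divMap i C).1 by rw [mem_divMap, S.invol]; exact hx)
      exact (SetLike.ext_iff.1 (Q.2.2.1 i) x).1 this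
    · exact (SetLike.ext_iff.1 (Q.2.2.1 i) x).1 (h (mem_divMap.1 hx))
  by_cases hC : C.1 ≤ Q.1
  swap
  · rw [Codim2.symb, Codim2.symb, dif_neg hC, dif_neg (mt hmem.1 hC)]
  obtain ⟨w, z, hw, hz, h⟩ := exists_tame_rel C hf hg
  have hw' : S.σ i w ∉ (divMap i C).1 := fun h' => hw (by simpa [S.invol] using mem_divMap.1 h')
  have hz' : S.σ i z ∉ (divMap i C).1 := fun h' => hz (by simpa [S.invol] using mem_divMap.1 h')
  have hp := congrArg (S.σ i) h
  rw [map_mul, map_mul, (ha.pow _) i, (hb.pow _) i] at hp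
  set s : ℤ := Division.sgn ((S.ordAt C.1 g • a) i) * Division.sgn ((S.ordAt C.1 f • b) i) with hs
  have hsq : ∀ t : ZMod 2, Division.sgn t * Division.sgn t = 1 := by decide
  have hunit : (s : S.R) = 1 ∨ (s : S.R) = -1 := by
    rw [hs, Division.sgn, Division.sgn]
    split_ifs <;> simp
  have h' : f ^ S.ordAt (divMap i C).1 g * S.σ i z
      = g ^ S.ordAt (divMap i C).1 f * ((s : S.R) * S.σ i w) := by
    rw [S.ordAt_divMap i C hb, S.ordAt_divMap i C ha]
    have h1 : ((Division.sgn ((S.ordAt C.1 g • a) i) : ℤ) : S.R) *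
        (Division.sgn ((S.ordAt C.1 g • a) i) : S.R) = 1 := by
      rw [← Int.cast_mul, hsq, Int.cast_one]
    rw [hs, Int.cast_mul]
    linear_combination (Division.sgn ((S.ordAt C.1 g • a) i) : S.R) * hp
      - f ^ S.ordAt C.1 g * S.σ i z * h1
  have hsw : (s : S.R) * S.σ i w ∉ (divMap i C).1 := by
    rcases hunit with hu | hu <;> rw [hu] <;> simpa using hw'
  rw [Q.symb_eq ⟨divMap i C, hmem.2 hC⟩ hg hsw hz' h', Q.symb_eq ⟨C, hC⟩ hg hw hz h]
  have hM : Q.1.primeCompl.map (S.σ i).toRingEquiv.toMonoidHom = Q.1.primeCompl := by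
    ext y
    constructor
    · rintro ⟨x, hx, rfl⟩ h
      exact hx ((SetLike.ext_iff.1 (Q.2.2.1 i) x).1 h)
    · intro hy
      exact ⟨S.σ i y, fun h => hy ((SetLike.ext_iff.1 (Q.2.2.1 i) y).1 h), S.invol i y⟩
  let e : Q.loc ≃+* Q.loc :=
    IsLocalization.ringEquivOfRingEquiv _ _ (S.σ i).toRingEquiv hM
  have he : ∀ x, e (algebraMap S.R Q.loc x) = algebraMap S.R Q.loc (S.σ i x) :=
    fun x => IsLocalization.ringEquivOfRingEquiv_eq _ _
  have hI : (Q.curve ⟨C, hC⟩).I = Ideal.map (↑e : Q.loc →+* Q.loc) (Q.curve ⟨divMap i C, hmem.2 hC⟩).I := by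
    change C.1.map (algebraMap S.R Q.loc) =
      Ideal.map (↑e : Q.loc →+* Q.loc) ((divMap i C).1.map (algebraMap S.R Q.loc))
    rw [Ideal.map_map]
    refine le_antisymm (Ideal.map_le_iff_le_comap.2 fun x hx => ?_)
      (Ideal.map_le_iff_le_comap.2 fun x hx => ?_)
    · have := Ideal.mem_map_of_mem ((↑e : Q.loc →+* Q.loc).comp (algebraMap S.R Q.loc))
        (show S.σ i x ∈ (divMap i C).1 by rw [mem_divMap, S.invol]; exact hx)
      simpa [he, S.invol] using this
    · have := Ideal.mem_map_of_mem (algebraMap S.R Q.loc) (mem_divMap.1 hx)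
      simpa [he] using this
  have key : ∀ x, Recip.pOrd (Q.curve ⟨divMap i C, hmem.2 hC⟩) (algebraMap S.R Q.loc (S.σ i x))
      = Recip.pOrd (Q.curve ⟨C, hC⟩) (algebraMap S.R Q.loc x) := fun x => by
    rw [Recip.pOrd, Recip.pOrd, ← ord_ringEquiv (Ideal.quotientEquiv _ _ e hI), Ideal.quotientEquiv_mk,
      he, S.invol]
  have hs' : ∀ x, Recip.pOrd (Q.curve ⟨divMap i C, hmem.2 hC⟩)
      (algebraMap S.R Q.loc ((s : S.R) * x)) =
      Recip.pOrd (Q.curve ⟨divMap i C, hmem.2 hC⟩) (algebraMap S.R Q.loc x) := fun x => by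
    rcases hunit with hu | hu <;> rw [hu]
    · simp
    · simp [Recip.pOrd, Ring.ord_neg]
  rw [hs', key, key]

end Sys

end Vale.Agent.P199.Mult
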