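import Vale.Agent.P199.Mult.Basic

/-!
# P199: statements about the multiplicity shared by the modules of the construction
-/

namespace Vale.Agent.P199.Mult

variable {m : ℕ}

/-- An equivariant map of systems. -/
structure Hom (S T : Sys m) where
  /-- The map of rings. -/
  φ : S.R →ₐ[ℂ] T.R
  equiv : ∀ i x, φ (S.σ i x) = T.σ i (φ x)

/-- A finite injective equivariant map. -/
structure FinExt (S T : Sys m) extends Hom S T where
  inj : Function.Injective φ
  fin : φ.toRingHom.Finite

/-- The degree of a finite extension, as the rank of a module over a domain. -/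
noncomputable def FinExt.deg {S T : Sys m} (E : FinExt S T) : ℕ :=
  letI := E.φ.toRingHom.toAlgebra
  Module.finrank S.R T.R

/-- The degree formula for one extension. -/
def DegAt {S T : Sys m} (E : FinExt S T) : Prop := T.e = (E.deg : Fld m) * S.e

/-- Pushforward of cycles, given the degree formula in smaller dimension. -/
def PushStmt : Prop :=
  ∀ {m : ℕ} (S T : Sys m) (E : FinExt S T) (w : Wt m) (f : S.R), f ≠ 0 → SemiInv S.σ w f →
    (∀ (S' T' : Sys m) (E' : FinExt S' T'), S'.dim < S.dim → DegAt E') →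
      T.cyc (E.φ f) = (E.deg : Fld m) * S.cyc f

/-- Independence of the semi-invariant used for cutting. -/
def FormStmt : Prop :=
  ∀ {m : ℕ} (S : Sys m) (w : Wt m) (h : S.R), h ≠ 0 → SemiInv S.σ w h → lin w * S.e = S.cyc h

/-- The degree formula. -/
def DegStmt : Prop := ∀ {m : ℕ} (S T : Sys m) (E : FinExt S T), DegAt E

/-- Products. -/
def ProdStmt : Prop :=
  ∀ {m : ℕ} (S T : Sys m), ∃ (P : Sys m) (f : Hom S P) (g : Hom T P),
    Algebra.adjoin ℂ (Set.range f.φ ∪ Set.range g.φ) = ⊤ ∧ P.e = S.e * T.e ∧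
      P.dim = S.dim + T.dim

/-- Successive cuts by semi-invariants of nonzero weight. -/
def CutStmt : Prop :=
  ∀ {m : ℕ} (S : Sys m), S.e ≠ 0 → ∀ {α : Type} (s : Finset α) (w : α → Wt m) (h : α → S.R),
    (∀ a ∈ s, w a ≠ 0 ∧ SemiInv S.σ (w a) (h a)) →
      ∃ (Q : Sys m) (f : Hom S Q), Function.Surjective f.φ ∧ (∀ a ∈ s, f.φ (h a) = 0) ∧
        Q.e ≠ 0 ∧ S.dim ≤ Q.dim + s.card

/-- The extension of an involution to the fraction field. -/
noncomputable def Sys.σK (S : Sys m) (i : Fin m) : FractionRing S.R →+* FractionRing S.R :=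
  (IsFractionRing.ringEquivOfRingEquiv (S.σ i).toRingEquiv :
    FractionRing S.R ≃+* FractionRing S.R).toRingHom

/-- A nonzero multiplicity forbids invariant subspaces over the fraction field. -/
def IrredStmt : Prop :=
  ∀ {m : ℕ} (S : Sys m), S.e ≠ 0 → ∀ {X : Type} [Fintype X] (H : Fin m → Matrix X X ℤ),
    Division.Irred H (fun _ => RingHom.id ℂ) → Division.Irred H S.σK

end Vale.Agent.P199.Mult
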