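import Vale.Agent.P199.Mult.Facts
import Vale.Agent.P199.Mult.Interfaces

/-!
# P199: successive cuts keep a nonzero multiplicity
-/

namespace Vale.Agent.P199.Mult

variable {m : ℕ}

/-- Composition of equivariant maps. -/
def Hom.andThen {S T U : Sys m} (g : Hom T U) (f : Hom S T) : Hom S U :=
  ⟨g.φ.comp f.φ, fun i x => by simp [f.equiv, g.equiv]⟩

/-- The projection onto a child. -/
noncomputable def Sys.childHom (S : Sys m) (C : S.Child) : Hom S (S.child C) :=
  ⟨Ideal.Quotient.mkₐ ℂ C.1, fun _ _ => rfl⟩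

/-- One cut: a nonzero semi-invariant of nonzero weight has a child with nonzero multiplicity
through it. -/
theorem exists_child_through (hF : FormStmt) (S : Sys m) (he : S.e ≠ 0) {w : Wt m} {x : S.R} (hw : w ≠ 0)
    (hx : SemiInv S.σ w x) (hx0 : x ≠ 0) : ∃ C : S.Child, x ∈ C.1 ∧ (S.child C).e ≠ 0 := by
  by_contra h
  push Not at h
  have h1 : S.cyc x = 0 := by
    refine finsum_eq_zero_of_forall_eq_zero fun C => ?_
    by_cases hC : x ∈ C.1
    · rw [h C hC, mul_zero]
    · rw [S.ordAt_of_notMem hC, Nat.cast_zero, zero_mul]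
  exact mul_ne_zero (lin_ne_zero hw) he ((hF S w x hx0 hx).trans h1)

/-- The cut statement follows from independence of the semi-invariant. -/
theorem cut_of_form (hF : FormStmt) : CutStmt := by
  intro m S he α s w h hs
  classical
  induction s using Finset.induction_on with
  | empty =>
    exact ⟨S, ⟨AlgHom.id ℂ S.R, fun _ _ => rfl⟩, Function.surjective_id, by simp, he,
      Nat.le_add_right _ _⟩
  | insert a s ha ih =>
    obtain ⟨Q, f, hf, hzero, heQ, hdim⟩ := ih fun b hb => hs b (Finset.mem_insert_of_mem hb)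
    obtain ⟨hwa, hxa⟩ := hs a (Finset.mem_insert_self a s)
    rw [Finset.card_insert_of_notMem ha]
    by_cases h0 : f.φ (h a) = 0
    · refine ⟨Q, f, hf, fun b hb => ?_, heQ, by omega⟩
      rcases Finset.mem_insert.1 hb with rfl | hb
      exacts [h0, hzero b hb]
    · have hx : SemiInv Q.σ (w a) (f.φ (h a)) := hxa.map (f.φ : S.R →+* Q.R) f.equiv
      obtain ⟨C, hC, heC⟩ := exists_child_through hF Q heQ hwa hx h0
      refine ⟨Q.child C, (Q.childHom C).andThen f, ?_, fun b hb => ?_, heC, ?_⟩
      · exact Ideal.Quotient.mk_surjective.comp hf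
      · change Ideal.Quotient.mk C.1 (f.φ (h b)) = 0
        rw [Ideal.Quotient.eq_zero_iff_mem]
        rcases Finset.mem_insert.1 hb with rfl | hb
        exacts [hC, (hzero b hb).symm ▸ C.1.zero_mem]
      · have := Q.child_dim C
        omega

end Vale.Agent.P199.Mult
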