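import Vale.Agent.P199.Mult.Interfaces

/-!
# P199: orbit parity, support of cycles and the action on primes
-/

namespace Vale.Agent.P199.Mult

variable {m : ℕ}

/-- In characteristic two an invariant sum over a set with commuting involutions is the sum over
the common fixed points. -/
theorem sum_eq_fixed {α F : Type*} [DecidableEq α] [AddCommMonoid F] (hF : ∀ a : F, a + a = 0)
    (τ : Fin m → α → α) (hinv : ∀ i a, τ i (τ i a) = a)
    (hcomm : ∀ i j a, τ i (τ j a) = τ j (τ i a)) (f : α → F) (hf : ∀ i a, f (τ i a) = f a)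
    (s : Finset α) (hs : ∀ i, ∀ a ∈ s, τ i a ∈ s) :
    ∑ a ∈ s, f a = ∑ a ∈ s.filter (fun a => ∀ i, τ i a = a), f a := by
  classical
  suffices h : ∀ I : Finset (Fin m),
      ∑ a ∈ s, f a = ∑ a ∈ s.filter (fun a => ∀ i ∈ I, τ i a = a), f a by
    simpa using h Finset.univ
  intro I
  induction I using Finset.induction_on with
  | empty => simp
  | insert j I hj ih =>
    rw [ih, ← Finset.sum_filter_add_sum_filter_not _ (fun a => τ j a = a)]
    have h0 : ∑ a ∈ (s.filter fun a => ∀ i ∈ I, τ i a = a).filter (fun a => ¬τ j a = a), f a = 0 := by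
      refine Finset.sum_involution (fun a _ => τ j a) (fun a _ => by rw [hf, hF]) ?_ ?_ ?_
      · intro a ha _
        exact (Finset.mem_filter.1 ha).2
      · intro a ha
        simp only [Finset.mem_filter] at ha ⊢
        refine ⟨⟨hs j a ha.1.1, fun i hi => by rw [hcomm, ha.1.2 i hi]⟩, fun h => ha.2 ?_⟩
        simpa [hinv] using h.symm
      · intro a _
        exact hinv j a
    rw [h0, add_zero, Finset.filter_filter]
    refine Finset.sum_congr (Finset.filter_congr fun a _ => ?_) fun _ _ => rfl
    simp [and_comm]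

theorem fld_add_self (a : Fld m) : a + a = 0 := by rw [← two_mul, two_eq_zero, zero_mul]

/-- Length-defined order is invariant under ring isomorphisms. -/
theorem ord_ringEquiv {A B : Type*} [CommRing A] [CommRing B] (e : A ≃+* B) (x : A) :
    Ring.ord B (e x) = Ring.ord A x := by
  let _ := e.toRingHom.toAlgebra
  have h1 : Module.length A (B ⧸ Ideal.span {e x}) = Ring.ord B (e x) :=
    Module.length_eq_of_surjective (S := A) (R := B) e.surjective
  rw [← h1, Ring.ord]
  let l : A →ₗ[A] B := Algebra.linearMap A B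
  refine (LinearEquiv.length_eq (Submodule.Quotient.equiv (Ideal.span {x})
    ((Ideal.span {e x}).restrictScalars A) (LinearEquiv.ofBijective l e.bijective) ?_)).symm
  ext y
  simp only [Submodule.mem_map, Submodule.restrictScalars_mem, Ideal.mem_span_singleton']
  constructor
  · rintro ⟨_, ⟨c, rfl⟩, rfl⟩
    exact ⟨e c, (map_mul e c x).symm⟩
  · rintro ⟨c, rfl⟩
    exact ⟨e.symm c * x, ⟨_, rfl⟩, show e (e.symm c * x) = c * e x by simp⟩

namespace Sys

variable (S : Sys m)

/-- The primes of height one. -/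
abbrev Div : Type := {C : Ideal S.R // C.IsPrime ∧ C.height = 1}

instance (C : S.Div) : C.1.IsPrime := C.2.1

variable {S}

/-- A stable height-one prime as a height-one prime. -/
def Child.toDiv (C : S.Child) : S.Div := ⟨C.1, C.2.1, C.2.2.1⟩

/-- The action on height-one primes. -/
noncomputable def divMap (i : Fin m) (C : S.Div) : S.Div :=
  ⟨C.1.comap (S.σ i).toRingEquiv, Ideal.IsPrime.comap _,
    (RingEquiv.height_comap (S.σ i).toRingEquiv C.1).trans C.2.2⟩

theorem mem_divMap {i : Fin m} {C : S.Div} {x : S.R} : x ∈ (divMap i C).1 ↔ S.σ i x ∈ C.1 :=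
  Iff.rfl

theorem divMap_invol (i : Fin m) (C : S.Div) : divMap i (divMap i C) = C :=
  Subtype.ext (Ideal.ext fun x => by rw [mem_divMap, mem_divMap, S.invol])

theorem divMap_comm (i j : Fin m) (C : S.Div) : divMap i (divMap j C) = divMap j (divMap i C) :=
  Subtype.ext (Ideal.ext fun x => by rw [mem_divMap, mem_divMap, mem_divMap, mem_divMap, S.comm])

theorem divMap_eq_self {C : S.Div} : (∀ i, divMap i C = C) ↔ S.Stable C.1 :=
  forall_congr' fun _ => Subtype.ext_iff

variable (S)

theorem ordAt_of_notMem {C : Ideal S.R} [C.IsPrime] {x : S.R} (hx : x ∉ C) : S.ordAt C x = 0 := by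
  rw [ordAt, Ring.ord_of_isUnit (IsLocalization.map_units (M := C.primeCompl) _ ⟨x, hx⟩)]
  rfl

theorem ordAt_neg (C : Ideal S.R) [C.IsPrime] (x : S.R) : S.ordAt C (-x) = S.ordAt C x := by
  rw [ordAt, ordAt, map_neg, Ring.ord_neg]

/-- Orders are transported by an equivariant change of prime. -/
theorem ordAt_comap (i : Fin m) (C : Ideal S.R) [C.IsPrime] (x : S.R) :
    S.ordAt (C.comap (S.σ i).toRingEquiv) x = S.ordAt C (S.σ i x) := by
  let e : Localization.AtPrime (C.comap (S.σ i).toRingEquiv) ≃+* Localization.AtPrime C :=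
    IsLocalization.ringEquivOfRingEquiv _ _ (S.σ i).toRingEquiv
      (M := (C.comap (S.σ i).toRingEquiv).primeCompl) (T := C.primeCompl) (by
        ext y
        constructor
        · rintro ⟨z, hz, rfl⟩
          exact hz
        · intro hy
          refine ⟨(S.σ i).symm y, ?_, (S.σ i).apply_symm_apply y⟩
          intro h
          exact hy (by simpa using Ideal.mem_comap.1 h))
  rw [ordAt, ordAt, ← ord_ringEquiv e]
  congr 2
  exact IsLocalization.ringEquivOfRingEquiv_eq _ _

theorem ordAt_divMap (i : Fin m) (C : S.Div) {w : Wt m} {x : S.R} (hx : SemiInv S.σ w x) :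
    S.ordAt (divMap i C).1 x = S.ordAt C.1 x := by
  refine (S.ordAt_comap i C.1 x).trans ?_
  rw [hx i, Division.sgn]
  split_ifs <;> simp [ordAt_neg]

theorem finite_div {x : S.R} (hx : x ≠ 0) : {C : S.Div | x ∈ C.1}.Finite := by
  refine Set.Finite.of_finite_image
    ((Ideal.span {x}).finite_minimalPrimes_of_isNoetherianRing.subset ?_)
    (f := fun C : S.Div => C.1) (Subtype.val_injective.injOn)
  rintro _ ⟨C, hC, rfl⟩
  have : C.1.FiniteHeight := ⟨Or.inr (by rw [C.2.2]; exact ENat.one_ne_top)⟩
  exact Ideal.mem_minimalPrimes_of_height_le ((Ideal.span_singleton_le_iff_mem _).2 hC)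
    (C.2.2.le.trans
      (Ideal.one_le_height_span_singleton_of_mem_nonZeroDivisors (mem_nonZeroDivisors_of_ne_zero hx)))

theorem finite_child {x : S.R} (hx : x ≠ 0) : {C : S.Child | x ∈ C.1}.Finite :=
  (S.finite_div hx).preimage (f := Child.toDiv)
    (fun _ _ _ _ h => Subtype.ext (congrArg Subtype.val h :))

theorem support_cyc {x : S.R} (hx : x ≠ 0) :
    (Function.support fun C : S.Child => (S.ordAt C.1 x : Fld m) * (S.child C).e).Finite := by
  refine (S.finite_child hx).subset fun C hC => ?_
  by_contra h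
  exact hC (by simp [S.ordAt_of_notMem h])

theorem cyc_eq_sum {x : S.R} (hx : x ≠ 0) :
    S.cyc x = ∑ C ∈ (S.finite_child hx).toFinset, (S.ordAt C.1 x : Fld m) * (S.child C).e := by
  refine finsum_eq_sum_of_support_subset _ fun C hC => ?_
  rw [Set.Finite.coe_toFinset]
  by_contra h
  exact hC (by simp [S.ordAt_of_notMem h])

theorem ordAt_mul (C : S.Div) {x y : S.R} (hx : x ≠ 0) (hy : y ≠ 0) :
    S.ordAt C.1 (x * y) = S.ordAt C.1 x + S.ordAt C.1 y := by
  have : Ring.KrullDimLE 1 (Localization.AtPrime C.1) := by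
    rw [Ring.krullDimLE_iff, IsLocalization.AtPrime.ringKrullDim_eq_height C.1, C.2.2]
    norm_num
  have hz : ∀ {z : S.R}, z ≠ 0 →
      algebraMap S.R (Localization.AtPrime C.1) z ∈ nonZeroDivisors _ := fun hz =>
    mem_nonZeroDivisors_of_ne_zero ((map_ne_zero_iff _
      (IsLocalization.injective _ C.1.primeCompl_le_nonZeroDivisors)).2 hz)
  rw [ordAt, map_mul, Ring.ord_mul _ (hz hy),
    ENat.toNat_add (Ring.ord_ne_top (hz hx)) (Ring.ord_ne_top (hz hy))]
  rfl

end Sys

end Vale.Agent.P199.Mult
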