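import Vale.Agent.P199.Mult.Curve

/-!
# P199: independence of the cutting semi-invariant and the degree formula
-/

namespace Vale.Agent.P199.Mult

variable {m : ℕ}

/-- Independence for systems of dimension `d`. -/
def FormDim (m d : ℕ) : Prop :=
  ∀ (S : Sys m), S.dim = d → ∀ (w : Wt m) (h : S.R), h ≠ 0 → SemiInv S.σ w h →
    lin w * S.e = S.cyc h

/-- The degree formula for systems of dimension `d`. -/
def DegDim (m d : ℕ) : Prop := ∀ (S T : Sys m) (E : FinExt S T), S.dim = d → DegAt E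

theorem sub_eq_add_fld (a b : Fld m) : a - b = a + b := by
  rw [sub_eq_iff_eq_add, add_assoc, fld_add_self, add_zero]

theorem SemiInv.mul_sgn {R : Type*} [CommRing R] [Algebra ℂ R] {σ : Fin m → R ≃ₐ[ℂ] R} {w : Wt m}
    {x : R} (hx : SemiInv σ w x) (i : Fin m) : (Division.sgn (w i) : R) * σ i x = x := by
  have h : ∀ t : ZMod 2, Division.sgn t * Division.sgn t = 1 := by decide
  rw [hx i, ← mul_assoc, ← Int.cast_mul, h, Int.cast_one, one_mul]

namespace Sys

variable (S : Sys m)

/-- Contributions of a child at a codimension-two prime. -/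
theorem child_cyc_eq {d : ℕ} (hd : S.dim = d + 1) (hdeg : ∀ k < d + 1, DegDim m k)
    (C : S.Child) (x : S.R) [IsIntegrallyClosed S.R] :
    (S.child C).cyc (Ideal.Quotient.mk C.1 x) =
      ∑ᶠ Q : {Q : S.Codim2 // C.1 ≤ Q.1}, (Recip.pOrd (Q.1.curve (C.below Q.1 Q.2))
        (algebraMap S.R Q.1.loc x) : Fld m) * (S.quot Q.1.1 Q.1.2.2.1).e := by
  refine finsum_eq_of_bijective _ C.codim2_bijective fun P => ?_
  have hP : S.qdim (C.codim2 P).1 + 2 = S.dim := (C.codim2 P).2.2.2
  have h := hdeg _ (show S.qdim (C.codim2 P).1 < d + 1 by omega) _ _ (C.ext2 P)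
    (S.quot_dim (C.codim2 P).1 (C.codim2 P).2.2.1)
  rw [DegAt, Child.ext2_deg, Nat.cast_one, one_mul] at h
  rw [h]
  congr 1
  exact_mod_cast congrArg (Int.cast : ℤ → Fld m) (C.ordAt_codim2 P x)

open Classical in
/-- The defect of independence at a child is the sum of the symbols. -/
theorem child_defect {d : ℕ} (hd : S.dim = d + 1) [IsIntegrallyClosed S.R]
    (hform : FormDim m d) (hdeg : ∀ k < d + 1, DegDim m k)
    (C : S.Child) {a b : Wt m} {f g : S.R} (hf : f ≠ 0) (hg : g ≠ 0)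
    (ha : SemiInv S.σ a f) (hb : SemiInv S.σ b g) :
    lin a * ((S.ordAt C.1 g : Fld m) * (S.child C).e) +
        lin b * ((S.ordAt C.1 f : Fld m) * (S.child C).e) =
      ∑ᶠ Q : S.Codim2, (Q.symb f g C.toDiv : Fld m) * (S.quot Q.1 Q.2.2.1).e ∧
    (Function.support fun Q : S.Codim2 =>
      (Q.symb f g C.toDiv : Fld m) * (S.quot Q.1 Q.2.2.1).e).Finite := by
  obtain ⟨w, z, hw, hz, h⟩ := exists_tame_rel C.toDiv hf hg
  obtain ⟨t, ht, htinv⟩ := exists_invariant_mul S.invol S.comm C.1 C.2.2.2 hz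
  set A := S.ordAt C.1 f with hA
  set B := S.ordAt C.1 g with hB
  have hrel : f ^ B * (z * t) = g ^ A * (w * t) := by
    rw [← mul_assoc, ← mul_assoc]
    exact congrArg (· * t) h
  have hwt : w * t ∉ C.1 := by
    intro hm
    rcases C.2.1.mem_or_mem hm with h' | h'
    · exact hw h'
    · exact ht (C.1.mul_mem_left z h')
  set c : Wt m := B • a + A • b with hc
  have hsemi : SemiInv S.σ c (w * t) := by
    intro i
    have h1 : SemiInv S.σ (B • a + 0) (f ^ B * (z * t)) := (ha.pow B).mul htinv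
    have h2 := h1 i
    rw [hrel, map_mul, add_zero, (hb.pow A) i] at h2
    have hg' : g ^ A ≠ 0 := pow_ne_zero _ hg
    have hsq : ∀ t : ZMod 2, Division.sgn t * Division.sgn t = 1 := by decide
    have h3 : ((Division.sgn ((A • b) i) : ℤ) : S.R) * (Division.sgn ((A • b) i) : S.R) = 1 := by
      rw [← Int.cast_mul, hsq, Int.cast_one]
    apply mul_left_cancel₀ hg'
    rw [hc, Pi.add_apply, sgn_add, Int.cast_mul]
    linear_combination (Division.sgn ((A • b) i) : S.R) * h2 - g ^ A * S.σ i (w * t) * h3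
  let K := S.child C
  have hK : K.dim = d := by
    have := S.child_dim C
    change (S.child C).dim = d
    omega
  have hmk : ∀ i x, Ideal.Quotient.mk C.1 (S.σ i x) = K.σ i (Ideal.Quotient.mk C.1 x) :=
    fun i x => rfl
  have hne : ∀ {x : S.R}, x ∉ C.1 → (Ideal.Quotient.mk C.1 x : K.R) ≠ 0 := fun hx h' =>
    hx (Ideal.Quotient.eq_zero_iff_mem.1 h')
  have e1 := hform K hK c _ (hne hwt) (hsemi.map (Ideal.Quotient.mk C.1) hmk)
  have e2 := hform K hK 0 _ (hne ht) (htinv.map (Ideal.Quotient.mk C.1) hmk)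
  rw [lin_zero, zero_mul] at e2
  let F : S.R → {Q : S.Codim2 // C.1 ≤ Q.1} → Fld m := fun x Q =>
    (Recip.pOrd (Q.1.curve (C.below Q.1 Q.2)) (algebraMap S.R Q.1.loc x) : Fld m) *
      (S.quot Q.1.1 Q.1.2.2.1).e
  have hcyc : ∀ x, K.cyc (Ideal.Quotient.mk C.1 x) = ∑ᶠ Q, F x Q := fun x =>
    S.child_cyc_eq hd hdeg C x
  have hfin : ∀ {x : S.R}, x ∉ C.1 → (Function.support (F x)).Finite := by
    intro x hx
    refine ((K.finite_child (hne hx)).image
      fun P => (⟨C.codim2 P, C.le_codim2 P⟩ : {Q : S.Codim2 // C.1 ≤ Q.1})).subset fun Q hQ => ?_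
    obtain ⟨P, rfl⟩ := C.codim2_bijective.2 Q
    refine ⟨P, ?_, rfl⟩
    by_contra hP
    apply hQ
    have h0 := C.ordAt_codim2 P x
    rw [show (S.child C).ordAt P.1 (Ideal.Quotient.mk C.1 x) = 0 from K.ordAt_of_notMem hP] at h0
    change (Recip.pOrd _ _ : Fld m) * _ = 0
    simp [← h0]
  have hsymb : ∀ Q : {Q : S.Codim2 // C.1 ≤ Q.1},
      (Q.1.symb f g C.toDiv : Fld m) * (S.quot Q.1.1 Q.1.2.2.1).e = F (w * t) Q + F (z * t) Q := by
    intro Q
    rw [Q.1.symb_eq ⟨C.toDiv, Q.2⟩ hg hwt ht hrel, Int.cast_sub, sub_eq_add_fld, add_mul]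
    rfl
  have hsupp : ∀ Q : S.Codim2, ¬ C.1 ≤ Q.1 → Q.symb f g C.toDiv = 0 := fun Q hQ => dif_neg hQ
  refine ⟨?_, ?_⟩
  · have hlin : lin c = (B : Fld m) * lin a + (A : Fld m) * lin b := by
      rw [hc, lin_add, lin_nsmul, lin_nsmul]
    calc lin a * ((B : Fld m) * K.e) + lin b * ((A : Fld m) * K.e) = lin c * K.e := by
          rw [hlin]; ring
      _ = ∑ᶠ Q, F (w * t) Q + ∑ᶠ Q, F (z * t) Q := by
          rw [← hcyc, ← hcyc, ← e2, add_zero]
          exact e1
      _ = ∑ᶠ Q, (F (w * t) Q + F (z * t) Q) := (finsum_add_distrib (hfin hwt) (hfin ht)).symm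
      _ = ∑ᶠ Q : {Q : S.Codim2 // C.1 ≤ Q.1},
            (Q.1.symb f g C.toDiv : Fld m) * (S.quot Q.1.1 Q.1.2.2.1).e :=
          finsum_congr fun Q => (hsymb Q).symm
      _ = _ := by
          refine (finsum_subtype_eq_finsum_cond
            (f := fun Q : S.Codim2 => (Q.symb f g C.toDiv : Fld m) * (S.quot Q.1 Q.2.2.1).e)
            (fun Q => C.1 ≤ Q.1)).trans (finsum_congr fun Q => ?_)
          by_cases hQ : C.1 ≤ Q.1
          · exact finsum_eq_if.trans (if_pos hQ)
          · rw [finsum_eq_if, if_neg hQ, hsupp Q hQ]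
            simp
  · refine (((hfin hwt).union (hfin ht)).image Subtype.val).subset fun Q hQ => ?_
    by_cases hCQ : C.1 ≤ Q.1
    · refine ⟨⟨Q, hCQ⟩, ?_, rfl⟩
      by_contra h'
      simp only [Set.mem_union, Function.mem_support, not_or, not_not] at h'
      apply hQ
      exact (hsymb ⟨Q, hCQ⟩).trans (by rw [h'.1, h'.2, add_zero])
    · exact absurd (by simp [hsupp Q hCQ]) hQ

open Classical in
/-- The identity of two cuts on a normal system. -/
theorem normal_swap {d : ℕ} (hd : S.dim = d + 1) [IsIntegrallyClosed S.R]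
    (hform : FormDim m d) (hdeg : ∀ k < d + 1, DegDim m k)
    {a b : Wt m} {f g : S.R} (hf : f ≠ 0) (hg : g ≠ 0)
    (ha : SemiInv S.σ a f) (hb : SemiInv S.σ b g) : lin a * S.cyc g = lin b * S.cyc f := by
  have hfg : f * g ≠ 0 := mul_ne_zero hf hg
  set Cs := (S.finite_child hfg).toFinset with hCs
  set Ds := (S.finite_div hfg).toFinset with hDs
  have hsub : ∀ {x : S.R}, x ∣ f * g → S.cyc x =
      ∑ C ∈ Cs, (S.ordAt C.1 x : Fld m) * (S.child C).e := by
    intro x hx
    refine finsum_eq_sum_of_support_subset _ fun C hC => ?_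
    rw [hCs, Set.Finite.coe_toFinset]
    by_contra h
    refine hC ?_
    simp [S.ordAt_of_notMem (C := C.1) (x := x) fun h' => h (Ideal.mem_of_dvd _ hx h')]
  have key : lin a * S.cyc g + lin b * S.cyc f = 0 := by
    rw [hsub (dvd_mul_left g f), hsub (dvd_mul_right f g), Finset.mul_sum, Finset.mul_sum,
      ← Finset.sum_add_distrib,
      Finset.sum_congr rfl fun C _ => (S.child_defect hd hform hdeg C hf hg ha hb).1,
      ← finsum_sum_comm _ _ fun C _ => (S.child_defect hd hform hdeg C hf hg ha hb).2]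
    refine finsum_eq_zero_of_forall_eq_zero fun Q => ?_
    rw [← Finset.sum_mul]
    suffices h : ∑ C ∈ Cs, (Q.symb f g C.toDiv : Fld m) = 0 by rw [h, zero_mul]
    have hall : ∑ D ∈ Ds, (Q.symb f g D : Fld m) = 0 := by
      have h : (Function.support fun D : S.Div => Q.symb f g D) ⊆ ↑Ds := by
        intro D hD
        rw [hDs, Set.Finite.coe_toFinset]
        by_contra h'
        exact hD (Q.symb_support D (fun hm => h' (D.1.mul_mem_right g hm))
          (fun hm => h' (D.1.mul_mem_left f hm)))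
      rw [← Int.cast_sum, ← finsum_eq_sum_of_support_subset _ h, Q.finsum_symb hf hg, Int.cast_zero]
    rw [sum_eq_fixed fld_add_self divMap divMap_invol divMap_comm _
      (fun i D => by rw [Q.symb_divMap ha hb hf hg i D]) Ds] at hall
    swap
    · intro i D hD
      rw [hDs, Set.Finite.mem_toFinset] at hD ⊢
      change S.σ i (f * g) ∈ D.1
      rw [(ha.mul hb) i]
      exact D.1.mul_mem_left _ hD
    rw [← hall]
    refine Finset.sum_bij (fun C _ => C.toDiv) (fun C hC => ?_) (fun C _ C' _ h => ?_)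
      (fun D hD => ?_) (fun C _ => rfl)
    · rw [hCs, Set.Finite.mem_toFinset] at hC
      rw [Finset.mem_filter, hDs, Set.Finite.mem_toFinset]
      exact ⟨hC, divMap_eq_self.2 C.2.2.2⟩
    · exact Subtype.ext (congrArg (fun D : S.Div => D.1) h)
    · rw [Finset.mem_filter, hDs, Set.Finite.mem_toFinset] at hD
      exact ⟨⟨D.1, D.2.1, D.2.2, divMap_eq_self.1 hD.2⟩,
        by rw [hCs, Set.Finite.mem_toFinset]; exact hD.1, rfl⟩
  rw [← sub_eq_add_fld] at key
  exact sub_eq_zero.1 key

theorem cyc_of_dim_zero (h : S.dim = 0) (x : S.R) : S.cyc x = 0 :=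
  finsum_eq_zero_of_forall_eq_zero fun C => by have := S.child_dim C; omega

end Sys

/-- Independence follows from the lower cases. -/
theorem formDim_of_lower (hP : PushStmt) (d : ℕ) (hform : ∀ k < d, FormDim m k)
    (hdeg : ∀ k < d, DegDim m k) : FormDim m d := by
  intro S hS w h hh hw
  cases d with
  | zero => rw [S.weight_eq_zero hS hw hh, lin_zero, zero_mul, S.cyc_of_dim_zero hS]
  | succ d =>
    obtain ⟨a, f, ha0, hf, ha, hfe⟩ := S.e_spec hS
    have hlow : ∀ (S' T' : Sys m) (E' : FinExt S' T'), S'.dim < S.dim → DegAt E' :=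
      fun S' T' E' hlt => hdeg _ (hS ▸ hlt) S' T' E' rfl
    have e1 : S.norm.cyc (S.normExt.φ f) = S.cyc f := by
      rw [hP S S.norm S.normExt a f hf ha hlow, S.normExt_deg, Nat.cast_one, one_mul]
    have e2 : S.norm.cyc (S.normExt.φ h) = S.cyc h := by
      rw [hP S S.norm S.normExt w h hh hw hlow, S.normExt_deg, Nat.cast_one, one_mul]
    have hN : S.norm.dim = d + 1 := S.normExt.dim_eq.trans hS
    have key := S.norm.normal_swap hN (hform d (Nat.lt_succ_self d)) hdeg
      ((map_ne_zero_iff _ S.normExt.inj).2 hf) ((map_ne_zero_iff _ S.normExt.inj).2 hh)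
      (ha.map S.normExt.φ.toRingHom S.normExt.equiv) (hw.map S.normExt.φ.toRingHom S.normExt.equiv)
    rw [e1, e2, ← hfe] at key
    refine mul_left_cancel₀ (lin_ne_zero ha0) ?_
    rw [key]
    ring

/-- The degree formula follows from independence. -/
theorem degDim_of_form (hP : PushStmt) (d : ℕ) (hform : FormDim m d)
    (hdeg : ∀ k < d, DegDim m k) : DegDim m d := by
  intro S T E hS
  cases d with
  | zero =>
    have hT : T.dim = 0 := E.dim_eq.trans hS
    have hb : Function.Bijective E.φ := by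
      refine ⟨E.inj, fun y => ?_⟩
      obtain ⟨c, rfl⟩ := (T.bijective_of_dim_zero hT).2 y
      exact ⟨algebraMap ℂ S.R c, E.φ.commutes c⟩
    rw [DegAt, E.deg_of_bijective hb, S.e_of_dim_zero hS, T.e_of_dim_zero hT]
    simp
  | succ d =>
    obtain ⟨a, f, ha0, hf, ha, hfe⟩ := S.e_spec hS
    have hpush := hP S T E a f hf ha fun S' T' E' hlt => hdeg _ (hS ▸ hlt) S' T' E' rfl
    have hT := hform T (E.dim_eq.trans hS) a (E.φ f) ((map_ne_zero_iff _ E.inj).2 hf)
      (ha.map E.φ.toRingHom E.equiv)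
    refine mul_left_cancel₀ (lin_ne_zero ha0) ?_
    rw [hT, hpush, ← hfe]
    ring

/-- Both statements in every dimension. -/
theorem form_and_deg (hP : PushStmt) (d : ℕ) : FormDim m d ∧ DegDim m d := by
  induction d using Nat.strong_induction_on with
  | _ d ih =>
    have h := formDim_of_lower hP d (fun k hk => (ih k hk).1) fun k hk => (ih k hk).2
    exact ⟨h, degDim_of_form hP d h fun k hk => (ih k hk).2⟩

theorem formStmt_of_push (hP : PushStmt) : FormStmt := fun S => (form_and_deg hP S.dim).1 S rfl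

theorem degStmt_of_push (hP : PushStmt) : DegStmt :=
  fun S T E => (form_and_deg hP S.dim).2 S T E rfl

end Vale.Agent.P199.Mult
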