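import Vale.Agent.P199.Mult.SigmaStmt
import Vale.Agent.P199.Pauli
import Vale.Agent.P199.Assemble

/-!
P199: the main loop.  Starting from two copies of the full traceless variety, impose the
identities one after another by cutting, and read off good pairs.
-/

namespace Vale.Agent.P199

open Matrix Division

section naturality

variable {X R R' : Type*} [Fintype X] [DecidableEq X] [CommRing R] [CommRing R']

omit [Fintype X] [DecidableEq X] in
theorem map_smul_ring (φ : R →+* R') (a : R) (M : Matrix X X R) :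
    (a • M).map φ = φ a • M.map φ := by
  ext u v
  simp

theorem rel_map (φ : R →+* R') (d : ℕ) (c : ℕ → R) (M : Matrix X X R)
    (h : M ^ d + ∑ l ∈ Finset.range d, c l • M ^ l = 0) :
    (M.map φ) ^ d + ∑ l ∈ Finset.range d, φ (c l) • (M.map φ) ^ l = 0 := by
  have h1 := congrArg (fun A => φ.mapMatrix A) h
  simp only [map_add, map_pow, map_sum, map_zero] at h1
  simp only [RingHom.mapMatrix_apply, map_smul_ring] at h1
  have h2 : ∀ l, (M ^ l).map φ = (M.map φ) ^ l := fun l => map_pow φ.mapMatrix M l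
  simpa only [h2] using h1

theorem npEval_map (φ : R →+* R') (c : ℕ → ℕ → R) (x y : Matrix X X R) (b : NPoly) :
    (npEval c x y b).map φ = npEval (fun i l => φ (c i l)) (x.map φ) (y.map φ) b := by
  change φ.mapMatrix (npEval c x y b) = _
  simp only [npEval, map_list_sum, List.map_map]
  congr 1
  refine List.map_congr_left fun t _ => ?_
  simp only [Function.comp_apply, RingHom.mapMatrix_apply]
  rw [map_smul_ring]
  congr 1
  · simp only [coeffEval, map_mul, map_intCast, map_list_prod, List.map_map]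
    rfl
  · change φ.mapMatrix (wordEval x y t.2.2) = _
    simp only [wordEval, map_list_prod, List.map_map]
    congr 1
    exact List.map_congr_left fun s _ => by cases s <;> rfl

theorem npEval_congr {D : Type*} [Ring D] [Algebra R D] (c c' : ℕ → ℕ → R) (x y : D) (b : NPoly)
    (i : ℕ) (hb : b.Below i) (h : ∀ a < i, ∀ l, c a l = c' a l) :
    npEval c x y b = npEval c' x y b := by
  simp only [npEval]
  congr 1
  refine List.map_congr_left fun t ht => ?_
  congr 1
  simp only [coeffEval]
  congr 2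
  exact List.map_congr_left fun p hp => h _ (hb t ht p hp) _

theorem semiconj_npEval {H x x' y y' : Matrix X X R} (c : ℕ → ℕ → R) (hx : H * x' = x * H)
    (hy : H * y' = y * H) (b : NPoly) : H * npEval c x' y' b = npEval c x y b * H := by
  have hw : ∀ w, H * wordEval x' y' w = wordEval x y w * H := by
    intro w
    induction w with
    | nil => simp [wordEval]
    | cons s w ih =>
      have h1 : ∀ u v : Matrix X X R, wordEval u v (s :: w) = cond s u v * wordEval u v w :=
        fun u v => by simp [wordEval]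
      rw [h1, h1, ← mul_assoc]
      cases s <;> simp only [cond_true, cond_false, hx, hy, mul_assoc, ih]
  induction b with
  | nil => simp [npEval]
  | cons t b ih =>
    have h1 : ∀ u v : Matrix X X R,
        npEval c u v (t :: b) = coeffEval c t • wordEval u v t.2.2 + npEval c u v b :=
      fun u v => by simp [npEval]
    rw [h1, h1, mul_add, add_mul, Matrix.mul_smul, hw, Matrix.smul_mul, ih]

end naturality

namespace Mult

open Pauli

variable {n : ℕ}

/-- The generators of the Heisenberg group. -/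
def gen (i : Fin (n + n)) : Pidx n :=
  Fin.addCases (fun a => (Pi.single a 1, 0)) (fun k => (0, Pi.single k 1)) i

/-- The weight of a Pauli coordinate. -/
def wt (u : Pidx n) : Wt (n + n) := fun i => dot (gen i).2 u.1 + dot u.2 (gen i).1

theorem gen_left (a : Fin n) : gen (Fin.castAdd n a) = (Pi.single a 1, 0) :=
  Fin.addCases_left _

theorem gen_right (k : Fin n) : gen (Fin.natAdd n k) = (0, Pi.single k 1) :=
  Fin.addCases_right _

theorem sign_gen (i : Fin (n + n)) (u : Pidx n) : sign (gen i) u = sgn (wt u i) := rfl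

theorem wt_ne_zero {u : Pidx n} (hu : u ≠ 0) : wt u ≠ 0 := by
  intro h
  apply hu
  refine Prod.ext (funext fun k => ?_) (funext fun a => ?_)
  · have := congrFun h (Fin.natAdd n k)
    rw [wt, gen_right] at this
    simpa [dot, Pi.single_apply] using this
  · have := congrFun h (Fin.castAdd n a)
    rw [wt, gen_left] at this
    simpa [dot, Pi.single_apply] using this

theorem wt_zero : wt (0 : Pidx n) = 0 := by
  funext i
  simp [wt, dot]

/-- The matrices of the generators. -/
def heisGen (i : Fin (n + n)) : Matrix (Idx n) (Idx n) ℤ := pauli (gen i)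

theorem irred_heisGen {L : Type*} [Field L] (h2 : (2 : L) ≠ 0) :
    Irred (heisGen : Fin (n + n) → Matrix (Idx n) (Idx n) ℤ) (fun _ => RingHom.id L) := by
  intro W hW
  refine irred_pauli h2 W ?_
  have hadd : ∀ g h : Pidx n, (∀ w ∈ W, castMat L (pauli g) *ᵥ w ∈ W) →
      (∀ w ∈ W, castMat L (pauli h) *ᵥ w ∈ W) → ∀ w ∈ W, castMat L (pauli (g + h)) *ᵥ w ∈ W := by
    intro g h hg hh w hw
    have h1 := W.smul_mem (sgn (dot g.2 h.1) : L) (hg _ (hh w hw))
    rwa [Matrix.mulVec_mulVec, ← castMat_mul, pauli_mul, castMat_smul, Matrix.smul_mulVec,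
      smul_smul, ← Int.cast_mul, sgn_mul_self, Int.cast_one, one_smul] at h1
  have hzero : ∀ w ∈ W, castMat L (pauli (0 : Pidx n)) *ᵥ w ∈ W := by
    intro w hw
    rw [pauli_zero, castMat, Matrix.map_one _ Int.cast_zero Int.cast_one, one_mulVec]
    exact hw
  intro g w hw
  have hg : g = ∑ a, ((Pi.single a (g.1 a), 0) : Pidx n) +
      ∑ k, ((0, Pi.single k (g.2 k)) : Pidx n) := by
    refine Prod.ext ?_ ?_ <;>
      simp [Prod.fst_sum, Prod.snd_sum, Finset.univ_sum_single]
  have h01 : ∀ t : ZMod 2, t = 0 ∨ t = 1 := by decide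
  rw [hg]
  revert w
  refine hadd _ _ ?_ ?_
  · refine Finset.sum_induction _ (fun g => ∀ w ∈ W, castMat L (pauli g) *ᵥ w ∈ W) hadd hzero
      fun a _ => ?_
    rcases h01 (g.1 a) with h | h <;> rw [h]
    · simpa [Prod.mk_zero_zero] using hzero
    · intro w hw
      simpa only [heisGen, gen_left, RingHom.coe_id, Function.id_comp] using hW (Fin.castAdd n a) w hw
  · refine Finset.sum_induction _ (fun g => ∀ w ∈ W, castMat L (pauli g) *ᵥ w ∈ W) hadd hzero
      fun a _ => ?_
    rcases h01 (g.2 a) with h | h <;> rw [h]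
    · simpa [Prod.mk_zero_zero] using hzero
    · intro w hw
      simpa only [heisGen, gen_right, RingHom.coe_id, Function.id_comp] using hW (Fin.natAdd n a) w hw

noncomputable instance invertibleTwo (S : Sys (n + n)) : Invertible (2 : S.R) :=
  (Invertible.map (algebraMap ℂ S.R) 2).copy 2 (map_ofNat _ 2).symm

/-- A matrix fixed by the action. -/
def FixedMat (S : Sys (n + n)) (z : Matrix (Idx n) (Idx n) S.R) : Prop :=
  ∀ i, castMat S.R (heisGen i) * z.map (S.σ i) = z * castMat S.R (heisGen i)

theorem FixedMat.semiInv {S : Sys (n + n)} {z : Matrix (Idx n) (Idx n) S.R} (hz : FixedMat S z)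
    (u : Pidx n) : SemiInv S.σ (wt u) (coord u z) := fun i =>
  (Pauli.fixed_iff (gen i) (S.σ i : S.R →+* S.R) z).1 (hz i) u

theorem fixedMat_of_semiInv {S : Sys (n + n)} (z : Pidx n → S.R)
    (hz : ∀ u, SemiInv S.σ (wt u) (z u)) :
    FixedMat S (∑ u, z u • castMat S.R (pauli u)) := fun i =>
  (Pauli.fixed_iff (gen i) (S.σ i : S.R →+* S.R) _).2 fun u => by
    rw [coord_sum]
    exact hz u i

theorem FixedMat.map {S T : Sys (n + n)} (f : Hom S T) {z : Matrix (Idx n) (Idx n) S.R}
    (hz : FixedMat S z) : FixedMat T (z.map f.φ) := by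
  intro i
  have h1 := congrArg (fun M => f.φ.toRingHom.mapMatrix M) (hz i)
  have hc : f.φ.toRingHom.mapMatrix (castMat S.R (heisGen i)) = castMat T.R (heisGen i) := by
    ext a b
    simp
  have he : f.φ.toRingHom.mapMatrix (z.map (S.σ i)) = (z.map f.φ).map (T.σ i) := by
    ext a b
    simp [f.equiv]
  simp only [map_mul, hc, he] at h1
  exact h1

theorem coord_map {S T : Sys (n + n)} (f : Hom S T) (u : Pidx n)
    (z : Matrix (Idx n) (Idx n) S.R) : coord u (z.map f.φ) = f.φ (coord u z) := by
  conv_lhs => rw [eq_sum_coord z]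
  have : (∑ v, coord v z • castMat S.R (pauli v)).map f.φ =
      ∑ v, f.φ (coord v z) • castMat T.R (pauli v) := by
    ext a b
    simp [Matrix.sum_apply]
  rw [this, coord_sum]

theorem FixedMat.npEval {S : Sys (n + n)} {x y : Matrix (Idx n) (Idx n) S.R}
    (hx : FixedMat S x) (hy : FixedMat S y) (c : ℕ → ℕ → S.R) (hc : ∀ a l i, S.σ i (c a l) = c a l)
    (b : NPoly) : FixedMat S (npEval c x y b) := by
  intro i
  have h1 := npEval_map (S.σ i : S.R →+* S.R) c x y b
  simp only [RingHom.coe_coe, hc] at h1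
  rw [h1]
  exact semiconj_npEval c (hx i) (hy i) b

/-- The entries of two matrices. -/
def entries {R : Type} (x y : Matrix (Idx n) (Idx n) R) : Set R :=
  Set.range (Function.uncurry x) ∪ Set.range (Function.uncurry y)

theorem entries_map {R R' : Type} (φ : R → R') (x y : Matrix (Idx n) (Idx n) R) :
    entries (x.map φ) (y.map φ) = φ '' entries x y := by
  rw [entries, entries, Set.image_union, ← Set.range_comp, ← Set.range_comp]
  rfl

theorem entries_mem {S : Sys (n + n)} {A : Subalgebra ℂ S.R} {M : Matrix (Idx n) (Idx n) S.R}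
    (hM : ∀ a b, M a b ∈ A) (u : Pidx n) : coord u M ∈ A := by
  have h2 : (⅟(2 : S.R)) ∈ A := by
    have : (⅟(2 : S.R)) = algebraMap ℂ S.R (2⁻¹ : ℂ) := by
      refine invOf_eq_right_inv ?_
      rw [← map_ofNat (algebraMap ℂ S.R) 2, ← map_mul, mul_inv_cancel₀ (two_ne_zero), map_one]
    rw [this]
    exact A.algebraMap_mem _
  exact A.mul_mem (A.pow_mem h2 n) (A.sum_mem fun a _ => A.mul_mem (hM _ _) (intCast_mem A _))

theorem npEval_mem {S : Sys (n + n)} {A : Subalgebra ℂ S.R} {x y : Matrix (Idx n) (Idx n) S.R}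
    {c : ℕ → ℕ → S.R} (hx : ∀ a b, x a b ∈ A) (hy : ∀ a b, y a b ∈ A) (hc : ∀ a b, c a b ∈ A)
    (b : NPoly) (a a' : Idx n) : npEval c x y b a a' ∈ A := by
  let x' : Matrix (Idx n) (Idx n) A := Matrix.of fun u v => ⟨x u v, hx u v⟩
  let y' : Matrix (Idx n) (Idx n) A := Matrix.of fun u v => ⟨y u v, hy u v⟩
  let c' : ℕ → ℕ → A := fun u v => ⟨c u v, hc u v⟩
  have h := npEval_map A.val.toRingHom c' x' y' b
  have h1 : x'.map A.val.toRingHom = x := rfl
  have h2 : y'.map A.val.toRingHom = y := rfl
  rw [h1, h2] at h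
  rw [show npEval c x y b = (npEval c' x' y' b).map A.val.toRingHom from h.symm]
  exact (npEval c' x' y' b a a').2

/-- The output of the spectral module: for each `r` the variety of traceless matrices killed by a
polynomial of degree `2 ^ r`, with nonzero multiplicity. -/
def TStmt : Prop :=
  ∀ n r : ℕ, 1 ≤ r → r ≤ n → ∃ (T : Sys (n + n)) (z : Pidx n → T.R) (c : ℕ → T.R),
    T.e ≠ 0 ∧ 4 ^ n - 1 ≤ T.dim + 4 ^ n / 2 ^ r ∧ z 0 = 0 ∧
    (∀ u, SemiInv T.σ (wt u) (z u)) ∧ Algebra.adjoin ℂ (Set.range z) = ⊤ ∧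
    (∀ i l, T.σ i (c l) = c l) ∧
    (∑ u, z u • castMat T.R (pauli u)) ^ 2 ^ r +
      ∑ l ∈ Finset.range (2 ^ r), c l • (∑ u, z u • castMat T.R (pauli u)) ^ l = 0

/-- The state of the loop after `k` identities. -/
structure State (n k : ℕ) where
  S : Sys (n + n)
  x : Matrix (Idx n) (Idx n) S.R
  y : Matrix (Idx n) (Idx n) S.R
  c : ℕ → ℕ → S.R
  e0 : S.e ≠ 0
  fixx : FixedMat S x
  fixy : FixedMat S y
  fixc : ∀ a l i, S.σ i (c a l) = c a l
  gen : Algebra.adjoin ℂ (entries x y) = ⊤
  root : ∀ i < k, npEval c x y (bseq i) ^ degq i +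
    ∑ l ∈ Finset.range (degq i), c i l • npEval c x y (bseq i) ^ l = 0
  big : 2 * 4 ^ n ≤ S.dim + 2 + 2 * 2 ^ n + ∑ i ∈ Finset.range k, 4 ^ n / degq i

theorem State.start (hT : TStmt) (hP : ProdStmt) (hn : 1 ≤ n) : Nonempty (State n 0) := by
  obtain ⟨T, z, -, he, hdim, -, hz, hgen, -, -⟩ := hT n n hn le_rfl
  obtain ⟨P, f, g, hfg, heP, hdP⟩ := hP T T
  let Z : Matrix (Idx n) (Idx n) T.R := ∑ u, z u • castMat T.R (pauli u)
  have hZ := fixedMat_of_semiInv z hz
  refine ⟨⟨P, Z.map f.φ, Z.map g.φ, fun _ _ => 0, by rw [heP]; exact mul_ne_zero he he, hZ.map f,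
    hZ.map g, fun a l i => map_zero _, ?_, fun i hi => absurd hi (Nat.not_lt_zero i), ?_⟩⟩
  · have key : ∀ (h : Hom T P) (A : Subalgebra ℂ P.R), (∀ a b, h.φ (Z a b) ∈ A) →
        Set.range h.φ ⊆ A := by
      intro h A hA
      rintro _ ⟨t, rfl⟩
      have ht : t ∈ A.comap h.φ := by
        have : Algebra.adjoin ℂ (Set.range z) ≤ A.comap h.φ := by
          refine Algebra.adjoin_le ?_
          rintro _ ⟨u, rfl⟩
          rw [← coord_sum z u]
          exact entries_mem (A := A.comap h.φ) hA u
        exact this (hgen.ge Algebra.mem_top)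
      exact ht
    refine eq_top_iff.2 (hfg.ge.trans (Algebra.adjoin_le (Set.union_subset ?_ ?_)))
    · exact key f _ fun a b => Algebra.subset_adjoin (Or.inl ⟨(a, b), rfl⟩)
    · exact key g _ fun a b => Algebra.subset_adjoin (Or.inr ⟨(a, b), rfl⟩)
  · rw [hdP]
    have h4 : 4 ^ n / 2 ^ n = 2 ^ n := by
      rw [show (4 : ℕ) ^ n = 2 ^ n * 2 ^ n by rw [← mul_pow]; norm_num,
        Nat.mul_div_cancel _ (by positivity)]
    have h1 : 1 ≤ 4 ^ n := Nat.one_le_pow _ _ (by norm_num)
    simp only [Finset.range_zero, Finset.sum_empty]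
    omega

theorem State.step {k : ℕ} (hT : TStmt) (hP : ProdStmt) (hC : CutStmt) (hk : k + 4 ≤ n)
    (st : State n k) : Nonempty (State n (k + 1)) := by
  classical
  obtain ⟨S, x, y, c, e0, fixx, fixy, fixc, hgen, hroot, hbig⟩ := st
  obtain ⟨T, z, cT, he, hdim, hz0, hz, hgenT, hcT, hrootT⟩ := hT n (k + 4) (by omega) hk
  obtain ⟨P, f, g, hfg, heP, hdP⟩ := hP S T
  let B : Matrix (Idx n) (Idx n) S.R := npEval c x y (bseq k)
  have hB : FixedMat S B := fixx.npEval fixy c fixc _
  let h : Pidx n → P.R := fun u => g.φ (z u) - f.φ (coord u B)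
  have hh : ∀ u ∈ Finset.univ.erase (0 : Pidx n), wt u ≠ 0 ∧ SemiInv P.σ (wt u) (h u) := by
    intro u hu
    refine ⟨wt_ne_zero (Finset.ne_of_mem_erase hu), fun i => ?_⟩
    have h1 := (hz u).map (g.φ : T.R →+* P.R) (fun i x => g.equiv i x) i
    have h2 := (hB.semiInv u).map (f.φ : S.R →+* P.R) (fun i x => f.equiv i x) i
    simp only [RingHom.coe_coe] at h1 h2
    simp only [h, map_sub, h1, h2]
    ring
  obtain ⟨Q, π, hπ, hkill, heQ, hdQ⟩ :=
    hC P (by rw [heP]; exact mul_ne_zero e0 he) _ wt h hh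
  let F : Hom S Q := ⟨π.φ.comp f.φ, fun i a => by simp [f.equiv, π.equiv]⟩
  let G : Hom T Q := ⟨π.φ.comp g.φ, fun i a => by simp [g.equiv, π.equiv]⟩
  let β : Q.R := F.φ (coord 0 B)
  let Z : Matrix (Idx n) (Idx n) T.R := ∑ u, z u • castMat T.R (pauli u)
  have hGz : ∀ u, G.φ (z u) = F.φ (coord u B) - if u = 0 then β else 0 := by
    intro u
    by_cases hu : u = 0
    · subst hu
      simp [hz0, β]
    · rw [if_neg hu, sub_zero]
      have := hkill u (Finset.mem_erase.2 ⟨hu, Finset.mem_univ _⟩)
      rw [map_sub, sub_eq_zero] at this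
      exact this
  have hZmap : Z.map G.φ = B.map F.φ - algebraMap Q.R (Matrix (Idx n) (Idx n) Q.R) β := by
    have h1 : Z.map G.φ = ∑ u, G.φ (z u) • castMat Q.R (pauli u) := by
      ext a b
      simp [Z, Matrix.sum_apply]
    have h2 : B.map F.φ = ∑ u, F.φ (coord u B) • castMat Q.R (pauli u) := by
      conv_lhs => rw [eq_sum_coord B]
      ext a b
      simp [Matrix.sum_apply]
    rw [h1, h2, Fintype.sum_congr _ _ fun u => by rw [hGz u, sub_smul], Finset.sum_sub_distrib]
    congr 1
    simp only [ite_smul, zero_smul, Finset.sum_ite_eq', Finset.mem_univ, if_true, pauli_zero]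
    rw [Algebra.algebraMap_eq_smul_one, castMat, Matrix.map_one _ Int.cast_zero Int.cast_one]
  -- the shifted polynomial
  let p : Polynomial Q.R := Polynomial.X ^ degq k +
    ∑ l ∈ Finset.range (degq k), Polynomial.C (G.φ (cT l)) * Polynomial.X ^ l
  have hp : p.Monic ∧ p.natDegree = degq k := by
    have hlt : (∑ l ∈ Finset.range (degq k),
        Polynomial.C (G.φ (cT l)) * Polynomial.X ^ l).degree < (degq k : WithBot ℕ) :=
      (Polynomial.degree_sum_le _ _).trans_lt ((Finset.sup_lt_iff (WithBot.bot_lt_coe _)).2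
        fun l hl => (Polynomial.degree_C_mul_X_pow_le _ _).trans_lt
          (WithBot.coe_lt_coe.2 (Finset.mem_range.1 hl)))
    refine ⟨Polynomial.monic_X_pow_add hlt, ?_⟩
    apply Polynomial.natDegree_eq_of_degree_eq_some
    rw [Polynomial.degree_add_eq_left_of_degree_lt (by simpa using hlt), Polynomial.degree_X_pow]
  let p' : Polynomial Q.R := p.comp (Polynomial.X - Polynomial.C β)
  have hp' : p'.Monic ∧ p'.natDegree = degq k := by
    constructor
    · exact hp.1.comp (Polynomial.monic_X_sub_C β) (by simp)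
    · simp [p', Polynomial.natDegree_comp, hp.2]
  have hσβ : ∀ i, Q.σ i β = β := fun i => by
    have h1 := hB.semiInv 0 i
    rw [wt_zero] at h1
    simp only [β, ← F.equiv, h1]
    simp [sgn]
  have hσp : ∀ i, p'.map (Q.σ i : Q.R →+* Q.R) = p' := by
    intro i
    simp only [p', p, Polynomial.map_comp, Polynomial.map_add, Polynomial.map_pow,
      Polynomial.map_X, Polynomial.map_sum, Polynomial.map_mul, Polynomial.map_C,
      Polynomial.map_sub, RingHom.coe_coe, ← G.equiv, hcT, hσβ]
  let c' : ℕ → ℕ → Q.R := fun a l => if a = k then p'.coeff l else F.φ (c a l)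
  have hev : ∀ i, npEval c' (x.map F.φ) (y.map F.φ) (bseq i) =
      if i ≤ k then (npEval c x y (bseq i)).map F.φ
      else npEval c' (x.map F.φ) (y.map F.φ) (bseq i) := by
    intro i
    split_ifs with hi
    · have h1 := npEval_map (F.φ : S.R →+* Q.R) c x y (bseq i)
      simp only [RingHom.coe_coe] at h1
      rw [h1]
      exact npEval_congr _ _ _ _ _ i (bseq_below i) fun a ha l => by
        simp [c', Nat.ne_of_lt (lt_of_lt_of_le ha hi)]
    · rfl
  refine ⟨⟨Q, x.map F.φ, y.map F.φ, c', heQ, fixx.map F, fixy.map F, ?_, ?_, ?_, ?_⟩⟩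
  · intro a l i
    simp only [c']
    split_ifs
    · have := congrArg (fun q => Polynomial.coeff q l) (hσp i)
      simpa [Polynomial.coeff_map] using this
    · rw [← F.equiv, fixc]
  · -- generation
    set A := Algebra.adjoin ℂ (entries (x.map F.φ) (y.map F.φ))
    have hF : ∀ s, F.φ s ∈ A := by
      intro s
      have h1 : (Algebra.adjoin ℂ (entries x y)).map F.φ = A := by
        rw [AlgHom.map_adjoin, ← entries_map]
      exact h1.le ⟨s, hgen.ge Algebra.mem_top, rfl⟩
    have hG : ∀ t, G.φ t ∈ A := by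
      intro t
      have : Algebra.adjoin ℂ (Set.range z) ≤ A.comap G.φ := by
        refine Algebra.adjoin_le ?_
        rintro _ ⟨u, rfl⟩
        simp only [Subalgebra.coe_comap, Set.mem_preimage, SetLike.mem_coe, hGz]
        split_ifs
        · exact A.sub_mem (hF _) (hF _)
        · exact A.sub_mem (hF _) A.zero_mem
      exact this (hgenT.ge Algebra.mem_top)
    refine eq_top_iff.2 fun q _ => ?_
    obtain ⟨pp, rfl⟩ := hπ q
    have : Algebra.adjoin ℂ (Set.range f.φ ∪ Set.range g.φ) ≤ A.comap π.φ := by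
      refine Algebra.adjoin_le (Set.union_subset ?_ ?_)
      · rintro _ ⟨s, rfl⟩
        exact hF s
      · rintro _ ⟨t, rfl⟩
        exact hG t
    exact this (hfg.ge Algebra.mem_top)
  · intro i hi
    rw [hev i, if_pos (Nat.lt_succ_iff.1 hi)]
    rcases Nat.lt_succ_iff_lt_or_eq.1 hi with hik | rfl
    · have h1 := rel_map (F.φ : S.R →+* Q.R) _ (c i) _ (hroot i hik)
      simp only [RingHom.coe_coe] at h1
      simpa only [c', if_neg (Nat.ne_of_lt hik)] using h1
    · have h1 : Polynomial.aeval (Z.map G.φ) p = 0 := by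
        have h2 := rel_map (G.φ : T.R →+* Q.R) _ cT _ hrootT
        simp only [RingHom.coe_coe] at h2
        simp only [p, map_add, map_pow, Polynomial.aeval_X, map_sum, map_mul,
          Polynomial.aeval_C, ← Algebra.smul_def]
        exact h2
      have h3 : Polynomial.aeval (B.map F.φ) p' = 0 := by
        rw [Polynomial.aeval_comp, map_sub, Polynomial.aeval_X, Polynomial.aeval_C, ← hZmap, h1]
      rw [hp'.1.as_sum, hp'.2] at h3
      simpa [c', B, Algebra.smul_def] using h3
  · rw [Finset.sum_range_succ]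
    have hcard : (Finset.univ.erase (0 : Pidx n)).card = 4 ^ n - 1 := by
      rw [Finset.card_erase_of_mem (Finset.mem_univ _), Finset.card_univ]
      simp [← mul_pow]
    have hdeg : degq k = 2 ^ (k + 4) := rfl
    rw [hcard, hdP] at hdQ
    rw [hdeg]
    omega

theorem exists_state (hT : TStmt) (hP : ProdStmt) (hC : CutStmt) :
    ∀ k, k + 3 ≤ n → 1 ≤ n → Nonempty (State n k)
  | 0, _, hn => State.start hT hP hn
  | k + 1, hk, hn => by
    obtain ⟨st⟩ := exists_state hT hP hC k (by omega) hn
    exact st.step hT hP hC (by omega)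

theorem sum_degq_le (N k : ℕ) :
    8 * ∑ i ∈ Finset.range k, N / degq i + N / 2 ^ k ≤ N := by
  induction k with
  | zero => simp
  | succ k ih =>
    rw [Finset.sum_range_succ]
    have h1 : 8 * (N / degq k) ≤ N / 2 ^ (k + 1) := by
      have : degq k = 2 ^ (k + 1) * 8 := by unfold degq; ring
      rw [this, ← Nat.div_div_eq_div_mul]
      exact Nat.mul_div_le _ _
    have h2 : 2 * (N / 2 ^ (k + 1)) ≤ N / 2 ^ k := by
      rw [pow_succ, ← Nat.div_div_eq_div_mul]
      exact Nat.mul_div_le _ _
    omega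

/-- **Main.** The interfaces give good pairs, hence the counterexample. -/
theorem goodPair_of_stmts (hT : TStmt) (hP : ProdStmt) (hC : CutStmt) (hI : IrredStmt)
    (j n : ℕ) (hn : j + 9 ≤ n) : Nonempty (GoodPair j n) := by
  obtain ⟨⟨S, x, y, c, e0, fixx, fixy, fixc, hgen, hroot, hbig⟩⟩ :=
    exists_state (n := n) hT hP hC (j + 1) (by omega) (by omega)
  let φ : S.R →+* FractionRing S.R := algebraMap S.R _
  have hσ : ∀ i a, φ (S.σ i a) = S.σK i (φ a) := fun i a =>
    (IsFractionRing.ringEquivOfRingEquiv_algebraMap (K := FractionRing S.R)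
      (L := FractionRing S.R) (S.σ i).toRingEquiv a).symm
  have hfix : ∀ {z}, FixedMat S z → ∀ i, castMat (FractionRing S.R) (heisGen i) *
      (z.map φ).map (S.σK i) = z.map φ * castMat (FractionRing S.R) (heisGen i) := by
    intro z hz i
    have h1 := congrArg (fun M => φ.mapMatrix M) (hz i)
    have hc : φ.mapMatrix (castMat S.R (heisGen i)) = castMat _ (heisGen i) := by
      ext a b
      simp
    have he : φ.mapMatrix (z.map (S.σ i)) = (z.map φ).map (S.σK i) := by
      ext a b
      simp [hσ]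
    simp only [map_mul, hc, he] at h1
    exact h1
  refine ⟨{
    L := FractionRing S.R
    ι := Fin (n + n)
    σ := S.σK
    H := heisGen
    unit := fun i => isUnit_pauli (gen i)
    irred := hI S e0 heisGen (irred_heisGen two_ne_zero)
    x := x.map φ
    y := y.map φ
    fixx := hfix fixx
    fixy := hfix fixy
    c := fun a l => φ (c a l)
    fixc := fun a b i => by rw [← hσ, fixc]
    root := ?_
    gen := ?_
    big := ?_ }⟩
  · intro i hi
    have h1 := rel_map φ _ (c i) _ (hroot i (Nat.lt_succ_iff.2 hi))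
    rwa [npEval_map] at h1
  · have hA : Algebra.adjoin ℂ (Set.range (Function.uncurry (x.map φ)) ∪
        Set.range (Function.uncurry (y.map φ))) =
        (IsScalarTower.toAlgHom ℂ S.R (FractionRing S.R)).range := by
      rw [← Algebra.map_top, ← hgen, AlgHom.map_adjoin, ← entries_map]
      rfl
    rw [hA]
    refine ⟨fun a => ?_⟩
    obtain ⟨u, v, hv, rfl⟩ := IsFractionRing.div_surjective (A := S.R) a
    set A := (IsScalarTower.toAlgHom ℂ S.R (FractionRing S.R)).range
    have hmem : ∀ r, IsAlgebraic A (algebraMap S.R (FractionRing S.R) r) := fun r =>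
      isAlgebraic_algebraMap (⟨algebraMap S.R _ r, r, rfl⟩ : A)
    rw [div_eq_mul_inv]
    exact (hmem u).mul (hmem v).inv
  · have halg : Algebra.IsAlgebraic S.R (FractionRing S.R) :=
      IsLocalization.isAlgebraic _ (nonZeroDivisors S.R)
    have h1 : Algebra.trdeg ℂ (FractionRing S.R) = S.dim := by
      have := trdeg_add_eq ℂ S.R (A := FractionRing S.R)
      rw [trdeg_eq_zero (R := S.R) (A := FractionRing S.R), add_zero] at this
      rw [← this, S.dim_cast]
    rw [h1, Nat.cast_le]
    have h2 := sum_degq_le (4 ^ n) (j + 1)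
    have h3 : 32 * 2 ^ n ≤ 4 ^ n / 2 ^ (j + 1) := by
      rw [Nat.le_div_iff_mul_le (by positivity)]
      calc 32 * 2 ^ n * 2 ^ (j + 1) = 2 ^ (5 + (j + 1)) * 2 ^ n := by ring
        _ ≤ 2 ^ n * 2 ^ n := Nat.mul_le_mul_right _ (Nat.pow_le_pow_right (by norm_num) (by omega))
        _ = 4 ^ n := by rw [← mul_pow]; norm_num
    omega

theorem tStmt_of_sigmaStmt (h : SigmaStmt) : TStmt := by
  intro n r _ hr
  obtain ⟨T, z, c, he, hdim, hz0, hz, hgen, hc, hroot⟩ := h n r hr
  refine ⟨T, z, c, he, hdim, hz0, fun u => ?_, hgen, fun i l => ?_, hroot⟩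
  · have : wt u = J u := by
      funext i
      refine Fin.addCases (fun a => ?_) (fun k => ?_) i
      · rw [wt, gen_left, J, Fin.append_left]
        simp [dot, Pi.single_apply]
      · rw [wt, gen_right, J, Fin.append_right]
        simp [dot, Pi.single_apply]
    rw [this]
    exact hz u
  · have := hc l i
    simpa [Division.sgn] using this

theorem kurosh_of_stmts (hT : TStmt) (hP : ProdStmt) (hC : CutStmt) (hI : IrredStmt) :
    KuroshFails :=
  kurosh_of_pairs fun j => ⟨j + 9, fun n hn => goodPair_of_stmts hT hP hC hI j n hn⟩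

end Mult

end Vale.Agent.P199
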