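import Vale.Agent.P199.Mult.Norm
import Vale.Agent.P199.PrimeStep

/-!
# P199: a nonzero multiplicity forbids invariant subspaces
-/

namespace Vale.Agent.P199.Mult

open Division

variable {m : ℕ} {X : Type} [Fintype X]

/-- On a zero-dimensional system irreducibility is that over the complex numbers. -/
theorem irred_dim_zero (S : Sys m) (h : S.dim = 0) (H : Fin m → Matrix X X ℤ)
    (h0 : Irred H (fun _ => RingHom.id ℂ)) : Irred H S.σK := by
  let e := RingEquiv.ofBijective (algebraMap ℂ S.R) (S.bijective_of_dim_zero h)
  let g : S.R →+* ℂ := e.symm.toRingHom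
  have hg : RingHom.ker g = (⊥ : Ideal S.R) := by
    rw [← RingHom.injective_iff_ker_eq_bot]
    exact e.symm.injective
  have : IsPrincipalIdealRing (Localization.AtPrime (⊥ : Ideal S.R)) := by
    have : IsFractionRing S.R (Localization.AtPrime (⊥ : Ideal S.R)) := by
      have hb : (⊥ : Ideal S.R).primeCompl = nonZeroDivisors S.R := by
        ext x
        simp [Ideal.primeCompl]
      rw [IsFractionRing, ← hb]
      infer_instance
    let _ := IsFractionRing.toField S.R (K := Localization.AtPrime (⊥ : Ideal S.R))
    infer_instance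
  refine irred_of_prime (K := FractionRing S.R) (⊥ : Ideal S.R) g hg ?_ H
    (fun i => (S.σ i : S.R →+* S.R)) ?_ S.σK (fun _ => RingHom.id ℂ)
    (fun i a => S.σK_algebraMap i a) ?_ h0
  · intro z
    exact ⟨algebraMap ℂ S.R z, 1, by simp, by
      rw [map_one, mul_one]
      exact (e.symm_apply_apply z).symm⟩
  · intro i
    ext x
    simp
  · intro i a
    obtain ⟨c, rfl⟩ := (S.bijective_of_dim_zero h).2 a
    simp

/-- Irreducibility passes from a child of a normal system to the system. -/
theorem irred_of_child (N : Sys m) [IsIntegrallyClosed N.R] {K : Type} [Field K] [Algebra N.R K]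
    [IsFractionRing N.R K] (σK : Fin m → K →+* K)
    (hK : ∀ i a, σK i (algebraMap N.R K a) = algebraMap N.R K (N.σ i a)) (C : N.Child)
    (H : Fin m → Matrix X X ℤ) (h : Irred H (N.child C).σK) : Irred H σK := by
  have : IsDiscreteValuationRing (Localization.AtPrime C.1) :=
    isDiscreteValuationRing_atPrime C.1 C.2.2.1
  let g : N.R →+* FractionRing (N.child C).R :=
    (algebraMap (N.child C).R (FractionRing (N.child C).R)).comp (Ideal.Quotient.mk C.1)
  have hg : RingHom.ker g = C.1 := by
    ext x
    exact RingHom.mem_ker.trans ((map_eq_zero_iff _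
      (IsFractionRing.injective (N.child C).R _)).trans Ideal.Quotient.eq_zero_iff_mem)
  refine irred_of_prime (K := K) C.1 g hg ?_ H (fun i => (N.σ i : N.R →+* N.R))
    (fun i => C.2.2.2 i) σK (N.child C).σK hK (fun i a => ?_) h
  · intro z
    obtain ⟨u, v, hv, rfl⟩ := IsFractionRing.div_surjective (A := (N.child C).R) z
    obtain ⟨a, rfl⟩ := Ideal.Quotient.mk_surjective u
    obtain ⟨s, rfl⟩ := Ideal.Quotient.mk_surjective v
    have hs : g s ≠ 0 :=
      IsFractionRing.to_map_ne_zero_of_mem_nonZeroDivisors (K := FractionRing (N.child C).R) hv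
    exact ⟨a, s, hs, div_mul_cancel₀ _ hs⟩
  · exact (N.child C).σK_algebraMap i _

/-- The irreducibility statement follows from the degree formula. -/
theorem irred_of_deg (hD : DegStmt) : IrredStmt := by
  intro m S he X _ H h0
  induction hd : S.dim generalizing S with
  | zero => exact irred_dim_zero S hd H h0
  | succ d ih =>
    have heN : S.norm.e ≠ 0 := by
      rw [hD S S.norm S.normExt, S.normExt_deg, Nat.cast_one, one_mul]
      exact he
    have hdN : S.norm.dim = d + 1 := S.normExt.dim_eq.trans hd
    obtain ⟨w, f, hw, -, -, hspec⟩ := S.norm.e_spec hdN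
    obtain ⟨C, hC⟩ : ∃ C : S.norm.Child, (S.norm.child C).e ≠ 0 := by
      by_contra h
      push Not at h
      have h1 : S.norm.cyc f = 0 :=
        finsum_eq_zero_of_forall_eq_zero fun C => by rw [h C, mul_zero]
      exact mul_ne_zero (lin_ne_zero hw) heN (hspec.trans h1)
    have hCd : (S.norm.child C).dim = d := by
      have := S.norm.child_dim C
      omega
    let _ : Algebra S.norm.R (FractionRing S.R) :=
      inferInstanceAs (Algebra S.normRing (FractionRing S.R))
    have : IsFractionRing S.norm.R (FractionRing S.R) :=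
      (integralClosure_props ℂ (R := S.R) (K := FractionRing S.R)).2.2.2
    exact irred_of_child S.norm S.σK (fun i a => rfl) C H (ih (S.norm.child C) hC hCd)

end Vale.Agent.P199.Mult
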