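import Vale.Agent.P199.Mult.Norm
import Vale.Agent.P199.Recip.Normal

/-!
# P199: reciprocity at a stable prime of codimension two
-/

namespace Vale.Agent.P199.Mult

open IsLocalRing

variable {m : ℕ}

namespace Sys

variable (S : Sys m)

/-- Transcendence degree of a quotient domain. -/
noncomputable def qdim (P : Ideal S.R) : ℕ := (Algebra.trdeg ℂ (S.R ⧸ P)).toNat

theorem qdim_cast (P : Ideal S.R) [P.IsPrime] : Algebra.trdeg ℂ (S.R ⧸ P) = S.qdim P := by
  rw [qdim, eq_comm, Cardinal.cast_toNat_of_lt_aleph0]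
  refine lt_of_le_of_lt (trdeg_le_of_surjective (Ideal.Quotient.mkₐ ℂ P)
    (Ideal.Quotient.mkₐ_surjective ℂ P)) ?_
  rw [S.dim_cast]
  exact Cardinal.natCast_lt_aleph0

theorem quot_dim (C : Ideal S.R) [C.IsPrime] (h : S.Stable C) : (S.quot C h).dim = S.qdim C := rfl

theorem qdim_lt {P Q : Ideal S.R} [P.IsPrime] [Q.IsPrime] (h : P < Q) : S.qdim Q < S.qdim P := by
  have : (Q.map (Ideal.Quotient.mk P)).IsPrime :=
    Ideal.map_isPrime_of_surjective Ideal.Quotient.mk_surjective (by rw [Ideal.mk_ker]; exact h.le)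
  have hne : Q.map (Ideal.Quotient.mk P) ≠ ⊥ := by
    rw [ne_eq, Ideal.map_eq_bot_iff_le_ker, Ideal.mk_ker]
    exact h.not_ge
  have h1 := trdeg_quotient_lt (k := ℂ) hne
  have e : ((S.R ⧸ P) ⧸ Q.map (Ideal.Quotient.mk P)) ≃ₐ[ℂ] S.R ⧸ Q :=
    DoubleQuot.quotQuotEquivQuotOfLEₐ ℂ h.le
  rw [e.trdeg_eq, S.qdim_cast, S.qdim_cast] at h1
  exact_mod_cast h1

theorem qdim_div {C : Ideal S.R} [C.IsPrime] (h : C.height = 1) : S.qdim C + 1 = S.dim := by
  obtain ⟨f, hf, hf0⟩ := Submodule.exists_mem_ne_zero_of_ne_bot (p := C) (fun h' => by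
    simp [h'] at h)
  have : C.FiniteHeight := ⟨Or.inr (by rw [h]; exact ENat.one_ne_top)⟩
  have h1 := trdeg_minimalPrime (k := ℂ) hf0
    (Ideal.mem_minimalPrimes_of_height_le ((Ideal.span_singleton_le_iff_mem _).2 hf)
      (h.le.trans (Ideal.one_le_height_span_singleton_of_mem_nonZeroDivisors
        (mem_nonZeroDivisors_of_ne_zero hf0))))
  rw [S.qdim_cast, S.dim_cast] at h1
  exact_mod_cast h1

theorem exists_div_le {P : Ideal S.R} [P.IsPrime] (hP : P ≠ ⊥) : ∃ C : S.Div, C.1 ≤ P := by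
  obtain ⟨f, hf, hf0⟩ := Submodule.exists_mem_ne_zero_of_ne_bot (p := P) hP
  obtain ⟨p, hp, hle⟩ := Ideal.exists_minimalPrimes_le
    ((Ideal.span_singleton_le_iff_mem _).2 hf : Ideal.span {f} ≤ P)
  have := hp.1.1
  refine ⟨⟨p, hp.1.1, le_antisymm
    (Ideal.height_le_one_of_isPrincipal_of_mem_minimalPrimes _ _ hp) ?_⟩, hle⟩
  exact (Ideal.one_le_height_span_singleton_of_mem_nonZeroDivisors
    (mem_nonZeroDivisors_of_ne_zero hf0)).trans (Ideal.height_mono hp.1.2)

/-- A nonzero prime is divisorial as soon as its quotient has codimension one. -/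
theorem height_eq_one {P : Ideal S.R} [P.IsPrime] (hP : P ≠ ⊥) (h : S.dim ≤ S.qdim P + 1) :
    P.height = 1 := by
  obtain ⟨C, hC⟩ := S.exists_div_le hP
  rcases hC.lt_or_eq with hlt | he
  · have := S.qdim_lt hlt
    have := S.qdim_div C.2.2
    omega
  · rw [← he]; exact C.2.2

/-- Stable primes of codimension two. -/
abbrev Codim2 : Type := {Q : Ideal S.R // Q.IsPrime ∧ S.Stable Q ∧ S.qdim Q + 2 = S.dim}

instance (Q : S.Codim2) : Q.1.IsPrime := Q.2.1

variable {S}

/-- The local ring at a codimension-two prime. -/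
abbrev Codim2.loc (Q : S.Codim2) : Type := Localization.AtPrime Q.1

theorem Codim2.div_lt (Q : S.Codim2) {C : S.Div} (h : C.1 ≤ Q.1) : C.1 < Q.1 := by
  refine lt_of_le_of_ne h fun he => ?_
  have := S.qdim_div C.2.2
  have := Q.2.2.2
  rw [← he] at this
  omega

theorem Codim2.height_one (Q : S.Codim2) {P : Ideal S.R} [P.IsPrime] (h0 : P ≠ ⊥) (h : P < Q.1) :
    P.height = 1 := by
  refine S.height_eq_one h0 ?_
  have := S.qdim_lt h
  have := Q.2.2.2
  omega

instance Codim2.twoDim (Q : S.Codim2) : Recip.TwoDim Q.loc := by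
  refine ⟨fun p q hp hq hp0 hpq => ?_⟩
  by_contra hne
  have hlt : q < maximalIdeal Q.loc := lt_of_le_of_ne (le_maximalIdeal hq.ne_top) hne
  have hmono : ∀ {a b : Ideal Q.loc}, a < b →
      a.comap (algebraMap S.R Q.loc) < b.comap (algebraMap S.R Q.loc) := fun hab =>
    (IsLocalization.orderEmbedding Q.1.primeCompl Q.loc).strictMono hab
  have h1 := hmono (bot_lt_iff_ne_bot.2 hp0)
  have h2 := hmono hpq
  have h3 : q.comap (algebraMap S.R Q.loc) < Q.1 := by
    have := hmono hlt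
    exact this.trans_eq Localization.AtPrime.under_maximalIdeal
  have h1' : p.comap (algebraMap S.R Q.loc) ≠ ⊥ := (bot_le.trans_lt h1).ne'
  have := Q.height_one h1' (h2.trans h3)
  have := S.qdim_div this
  have := S.qdim_lt h2
  have := S.qdim_lt h3
  have := Q.2.2.2
  omega

variable [IsIntegrallyClosed S.R]

instance Codim2.dvr (Q : S.Codim2) (C : Recip.Curve Q.loc) : IsDiscreteValuationRing C.loc :=
  have := isIntegrallyClosed_of_isLocalization Q.loc Q.1.primeCompl
    Q.1.primeCompl_le_nonZeroDivisors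
  Recip.dvr_of_normal C

/-- The curve of a divisor through `Q`. -/
noncomputable def Codim2.curve (Q : S.Codim2) (C : {C : S.Div // C.1 ≤ Q.1}) : Recip.Curve Q.loc where
  I := C.1.1.map (algebraMap S.R Q.loc)
  prime := IsLocalization.isPrime_of_isPrime_disjoint Q.1.primeCompl Q.loc _ C.1.2.1
    (Set.disjoint_left.2 fun _ h1 h2 => h1 (C.2 h2))
  ne_bot h := by
    have := C.1.2.2
    rw [(Ideal.map_eq_bot_iff_of_injective
      (IsLocalization.injective Q.loc Q.1.primeCompl_le_nonZeroDivisors)).1 h] at this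
    simp at this
  ne_max h := by
    refine (Q.div_lt C.2).ne ?_
    have hd : Disjoint (Q.1.primeCompl : Set S.R) (C.1.1 : Set S.R) :=
      Set.disjoint_left.2 fun _ h1 h2 => h1 (C.2 h2)
    have h' := IsLocalization.under_map_of_isPrime_disjoint Q.1.primeCompl Q.loc C.1.2.1 hd
    rw [← h', h, Localization.AtPrime.under_maximalIdeal]

theorem Codim2.comap_curve (Q : S.Codim2) (C : {C : S.Div // C.1 ≤ Q.1}) :
    (Q.curve C).I.comap (algebraMap S.R Q.loc) = C.1.1 :=
  IsLocalization.under_map_of_isPrime_disjoint Q.1.primeCompl Q.loc C.1.2.1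
    (Set.disjoint_left.2 fun _ h1 h2 => h1 (C.2 h2))

theorem Codim2.curve_bijective (Q : S.Codim2) : Function.Bijective Q.curve := by
  refine ⟨fun C D h => ?_, fun K => ?_⟩
  · refine Subtype.ext (Subtype.ext ?_)
    rw [← Q.comap_curve C, ← Q.comap_curve D, h]
  · have hle : K.I.comap (algebraMap S.R Q.loc) ≤ Q.1 := by
      exact (Ideal.comap_mono (le_maximalIdeal K.prime.ne_top)).trans_eq
        Localization.AtPrime.under_maximalIdeal
    have hne : K.I.comap (algebraMap S.R Q.loc) ≠ ⊥ := fun h => K.ne_bot (by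
      rw [← IsLocalization.map_under Q.1.primeCompl Q.loc K.I]
      show Ideal.map _ (K.I.comap (algebraMap S.R Q.loc)) = ⊥
      rw [h, Ideal.map_bot])
    have hlt : K.I.comap (algebraMap S.R Q.loc) < Q.1 := by
      refine lt_of_le_of_ne hle fun h => K.ne_max ?_
      rw [← IsLocalization.map_under Q.1.primeCompl Q.loc K.I]
      show Ideal.map _ (K.I.comap (algebraMap S.R Q.loc)) = _
      rw [h, Localization.AtPrime.map_eq_maximalIdeal]
    refine ⟨⟨⟨_, Ideal.IsPrime.comap _, Q.height_one hne hlt⟩, hle⟩, Recip.Curve.ext ?_⟩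
    exact IsLocalization.map_under Q.1.primeCompl Q.loc K.I

theorem Codim2.notMem_curve (Q : S.Codim2) (C : {C : S.Div // C.1 ≤ Q.1}) {x : S.R}
    (hx : x ∉ C.1.1) : algebraMap S.R Q.loc x ∉ (Q.curve C).I := fun h =>
  hx (by rw [← Q.comap_curve C]; exact h)

/-- Orders along a curve through `Q` are orders along the divisor. -/
theorem Codim2.ordC_curve (Q : S.Codim2) (C : {C : S.Div // C.1 ≤ Q.1}) (x : S.R) :
    Recip.ordC (Q.curve C) (algebraMap S.R Q.loc x) = S.ordAt C.1.1 x := by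
  have h1 : IsLocalization.AtPrime (Q.curve C).loc ((Q.curve C).I.comap (algebraMap S.R Q.loc)) :=
    IsLocalization.isLocalization_isLocalization_atPrime_isLocalization Q.1.primeCompl _ (Q.curve C).I
  have h2 : IsLocalization C.1.1.primeCompl (Q.curve C).loc := by
    have := h1
    simp only [IsLocalization.AtPrime] at this
    convert this using 1
    ext y
    exact not_congr (SetLike.ext_iff.1 (Q.comap_curve C).symm y)
  let e := (IsLocalization.algEquiv C.1.1.primeCompl (Localization.AtPrime C.1.1)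
    (Q.curve C).loc).toRingEquiv
  rw [Recip.ordC, ← Ring.ord_eq_addVal, Sys.ordAt, ← ord_ringEquiv e]
  congr 2
  exact ((IsLocalization.algEquiv C.1.1.primeCompl (Localization.AtPrime C.1.1)
    (Q.curve C).loc).commutes x).symm

open Classical in
/-- The symbol of `f, g` along a divisor at `Q`. -/
noncomputable def Codim2.symb (Q : S.Codim2) (f g : S.R) (C : S.Div) : ℤ :=
  if h : C.1 ≤ Q.1 then
    Recip.sC (Q.curve ⟨C, h⟩) (algebraMap S.R Q.loc f) (algebraMap S.R Q.loc g) else 0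

theorem Codim2.symb_eq (Q : S.Codim2) {f g w z : S.R} (C : {C : S.Div // C.1 ≤ Q.1})
    (hg : g ≠ 0) (hw : w ∉ C.1.1) (hz : z ∉ C.1.1)
    (h : f ^ S.ordAt C.1.1 g * z = g ^ S.ordAt C.1.1 f * w) :
    Q.symb f g C.1 = Recip.pOrd (Q.curve C) (algebraMap S.R Q.loc w)
      - Recip.pOrd (Q.curve C) (algebraMap S.R Q.loc z) := by
  rw [Codim2.symb, dif_pos C.2, Recip.sC, Q.ordC_curve, Q.ordC_curve]
  refine Recip.res_eq _ (pow_ne_zero _ ((map_ne_zero_iff _
    (IsLocalization.injective Q.loc Q.1.primeCompl_le_nonZeroDivisors)).2 hg))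
    (Q.notMem_curve C hw) (Q.notMem_curve C hz) ?_
  rw [← map_pow, ← map_pow, ← map_mul, ← map_mul, h]

theorem Codim2.symb_support (Q : S.Codim2) {f g : S.R} (C : S.Div) (hf : f ∉ C.1) (hg : g ∉ C.1) :
    Q.symb f g C = 0 := by
  rw [Codim2.symb]
  split_ifs with h
  · exact Recip.sC_eq_zero _ (Q.notMem_curve ⟨C, h⟩ hf) (Q.notMem_curve ⟨C, h⟩ hg)
  · rfl

/-- Reciprocity at `Q`. -/
theorem Codim2.finsum_symb (Q : S.Codim2) {f g : S.R} (hf : f ≠ 0) (hg : g ≠ 0) :
    ∑ᶠ C : S.Div, Q.symb f g C = 0 := by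
  have hinj := IsLocalization.injective Q.loc Q.1.primeCompl_le_nonZeroDivisors
  rw [← Recip.sig_eq_zero ((map_ne_zero_iff _ hinj).2 hf) ((map_ne_zero_iff _ hinj).2 hg),
    Recip.sig]
  have h1 : ∑ᶠ C : S.Div, Q.symb f g C = ∑ᶠ C ∈ {C : S.Div | C.1 ≤ Q.1}, Q.symb f g C := by
    classical
    refine finsum_congr fun C => ?_
    by_cases h : C.1 ≤ Q.1
    · exact (finsum_eq_if.trans (if_pos h)).symm
    · exact (dif_neg h).trans (finsum_eq_if.trans (if_neg h)).symm
  rw [h1, ← finsum_set_coe_eq_finsum_mem]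
  refine finsum_eq_of_bijective Q.curve Q.curve_bijective fun C => ?_
  exact dif_pos C.2

end Sys

end Vale.Agent.P199.Mult
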