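import Vale.Agent.P199.Mult.Interfaces
import Vale.Agent.P199.Mult.Push.Len

/-!
# P199: pushforward of the cycle of a semi-invariant along a finite extension
-/

namespace Vale.Agent.P199.Mult.Push

open Division (sgn)

variable {m : ℕ}

section Order

variable {A B : Type*} [CommRing A] [CommRing B]

/-- A ring isomorphism keeps orders. -/
theorem ord_ringEquiv (e : A ≃+* B) (x : A) : Ring.ord B (e x) = Ring.ord A x := by
  let := e.toRingHom.toAlgebra
  let e' : A ≃ₐ[A] B := AlgEquiv.ofBijective (Algebra.ofId A B) e.bijective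
  unfold Ring.ord
  rw [← Module.length_eq_of_surjective (R := B) (S := A) (M := B ⧸ Ideal.span {e x}) e.surjective]
  exact ((Ideal.quotientEquivAlg (Ideal.span {x}) (Ideal.span {e x}) e'
    (by rw [Ideal.map_span, Set.image_singleton]; rfl)).toLinearEquiv.length_eq).symm

/-- A ring isomorphism keeps orders at corresponding primes. -/
theorem ord_atPrime_ringEquiv (e : A ≃+* B) (P : Ideal A) [P.IsPrime] (Q : Ideal B) [Q.IsPrime]
    (h : Q.comap e = P) (x : A) :
    Ring.ord (Localization.AtPrime Q) (algebraMap B _ (e x)) =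
      Ring.ord (Localization.AtPrime P) (algebraMap A _ x) := by
  have H : P.primeCompl.map e.toMonoidHom = Q.primeCompl := by
    ext y
    subst h
    constructor
    · rintro ⟨z, hz, rfl⟩; exact hz
    · intro hy
      exact ⟨e.symm y, fun hz => hy (by simpa using hz), by simp⟩
  let L := IsLocalization.ringEquivOfRingEquiv (Localization.AtPrime P) (Localization.AtPrime Q) e H
  rw [show algebraMap B (Localization.AtPrime Q) (e x) = L (algebraMap A _ x) from
    (IsLocalization.ringEquivOfRingEquiv_eq H x).symm, ord_ringEquiv]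

end Order

section Height

variable {R : Type*} [CommRing R] [IsDomain R] [IsNoetherianRing R]

theorem height_eq_one {C : Ideal R} [C.IsPrime] (hC : C ≠ ⊥)
    (h1 : ∀ p : Ideal R, p.IsPrime → p ≠ ⊥ → p ≤ C → p = C) : C.height = 1 := by
  obtain ⟨a, ha, ha0⟩ := Submodule.exists_mem_ne_zero_of_ne_bot hC
  have hmem : C ∈ (Ideal.span {a}).minimalPrimes := by
    refine ⟨⟨inferInstance, (Ideal.span_singleton_le_iff_mem _).2 ha⟩, fun p hp hle => ?_⟩
    exact (h1 p hp.1 (fun h => ha0 (by simpa [h] using hp.2 (Ideal.mem_span_singleton_self a))) hle).ge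
  exact le_antisymm (Ideal.height_le_one_of_isPrincipal_of_mem_minimalPrimes _ C hmem)
    ((Ideal.one_le_height_span_singleton_of_mem_nonZeroDivisors
      (mem_nonZeroDivisors_of_ne_zero ha0)).trans
      (Ideal.height_mono ((Ideal.span_singleton_le_iff_mem _).2 ha)))

omit [IsNoetherianRing R] in
theorem eq_of_height_one {C : Ideal R} [C.IsPrime] (hC : C.height = 1) (p : Ideal R) (hp : p.IsPrime)
    (hp0 : p ≠ ⊥) (hle : p ≤ C) : p = C := by
  refine hle.eq_or_lt.resolve_right fun hlt => ?_
  have : C.FiniteHeight := ⟨Or.inr (by rw [hC]; exact ENat.one_ne_top)⟩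
  have : p.FiniteHeight := ⟨Or.inr (ne_top_of_le_ne_top
    (by rw [hC]; exact ENat.one_ne_top) (Ideal.height_mono hle))⟩
  have : (⊥ : Ideal R).FiniteHeight := ⟨Or.inr (by rw [Ideal.height_bot]; exact ENat.zero_ne_top)⟩
  have h1 := Ideal.height_strict_mono_of_isPrime hlt
  have h2 := Ideal.height_strict_mono_of_isPrime (bot_lt_iff_ne_bot.2 hp0)
  rw [Ideal.height_bot] at h2
  rw [hC] at h1
  exact h2.ne' (Order.lt_one_iff.1 h1)

theorem finite_containing {f : R} (hf : f ≠ 0) :
    {C : Ideal R | C.IsPrime ∧ C.height = 1 ∧ f ∈ C}.Finite := by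
  refine (Ideal.finite_minimalPrimes_of_isNoetherianRing R (Ideal.span {f})).subset
    fun C ⟨hC, hh, hfC⟩ => ⟨⟨hC, (Ideal.span_singleton_le_iff_mem _).2 hfC⟩, fun p hp hle => ?_⟩
  exact (eq_of_height_one hh p hp.1
    (fun h => hf (by simpa [h] using hp.2 (Ideal.mem_span_singleton_self f))) hle).ge

end Height

/-- Height one from the drop of the transcendence degree. -/
theorem eq_of_trdeg {R : Type} [CommRing R] [IsDomain R] [Algebra ℂ R] [Algebra.FiniteType ℂ R]
    {d : ℕ} {C : Ideal R} [C.IsPrime] (hd : Algebra.trdeg ℂ R = (d + 1 : ℕ))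
    (hdC : Algebra.trdeg ℂ (R ⧸ C) = d) (p : Ideal R) (hp : p.IsPrime) (hp0 : p ≠ ⊥)
    (hle : p ≤ C) : p = C := by
  refine hle.eq_or_lt.resolve_right fun hlt => ?_
  have h1 := trdeg_quotient_lt (k := ℂ) hp0
  let e := DoubleQuot.quotQuotEquivQuotOfLEₐ ℂ hle
  have : (C.map (Ideal.Quotient.mkₐ ℂ p)).IsPrime :=
    Ideal.map_isPrime_of_surjective (Ideal.Quotient.mkₐ_surjective ℂ p)
      ((Ideal.Quotient.mkₐ_ker ℂ p).trans_le hle)
  have hne : C.map (Ideal.Quotient.mkₐ ℂ p) ≠ ⊥ := by
    intro h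
    obtain ⟨x, hxC, hxp⟩ := Set.exists_of_ssubset hlt
    have := Ideal.mem_map_of_mem (Ideal.Quotient.mkₐ ℂ p) hxC
    rw [h, Ideal.mem_bot, Ideal.Quotient.mkₐ_eq_mk, Ideal.Quotient.eq_zero_iff_mem] at this
    exact hxp this
  have h2 := trdeg_quotient_lt (k := ℂ) hne
  have h3 : Algebra.trdeg ℂ ((R ⧸ p) ⧸ C.map (Ideal.Quotient.mkₐ ℂ p)) = d :=
    e.trdeg_eq.trans hdC
  rw [h3] at h2
  rw [hd] at h1
  obtain ⟨j, hj⟩ := Cardinal.lt_aleph0.1 (h1.trans (Cardinal.natCast_lt_aleph0 (n := d + 1)))
  rw [hj] at h1 h2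
  have a1 : j < d + 1 := by exact_mod_cast h1
  have a2 : d < j := by exact_mod_cast h2
  omega

theorem ordAt_eq_zero (S : Sys m) (C : Ideal S.R) [C.IsPrime] {x : S.R} (hx : x ∉ C) :
    S.ordAt C x = 0 := by
  rw [Sys.ordAt, Ring.ord_of_isUnit (IsLocalization.map_units (M := C.primeCompl)
    (Localization.AtPrime C) ⟨x, hx⟩)]
  rfl

theorem cyc_eq_sum (S : Sys m) (x : S.R) (s : Finset S.Child)
    (hs : ∀ C : S.Child, x ∈ C.1 → C ∈ s) :
    S.cyc x = ∑ C ∈ s, (S.ordAt C.1 x : Fld m) * (S.child C).e := by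
  refine finsum_eq_sum_of_support_subset _ fun C hC => hs C ?_
  by_contra h
  exact hC (by simp [ordAt_eq_zero S C.1 h])

section Extension

variable {S T : Sys m} [Algebra S.R T.R] [IsScalarTower ℂ S.R T.R] [Module.Finite S.R T.R]
  [FaithfulSMul S.R T.R]

omit [IsScalarTower ℂ S.R T.R] in
theorem height_over {C : Ideal S.R} [C.IsPrime] (hC : C.height = 1) (q : Ideal T.R) [q.IsPrime]
    (hq : q.under S.R = C) : q.height = 1 := by
  have hC0 : C ≠ ⊥ := fun h => by simp [h] at hC
  refine height_eq_one (fun h => hC0 (by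
    rw [← hq, h, Ideal.under, Ideal.comap_bot_of_injective _
      (FaithfulSMul.algebraMap_injective S.R T.R)])) fun p hp hp0 hle => ?_
  refine hle.eq_or_lt.resolve_right fun hlt => ?_
  have h1 := Ideal.IsIntegral.comap_lt_comap (R := S.R) hlt
  have h2 := eq_of_height_one hC (p.under S.R) inferInstance
    (fun h => hp0 (Ideal.eq_bot_of_comap_eq_bot h)) (hq ▸ h1.le)
  exact h1.ne (h2.trans hq.symm)

theorem height_under (q : T.Child) : (q.1.under S.R).height = 1 := by
  set C := q.1.under S.R with hC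
  have hq0 : q.1 ≠ ⊥ := fun h => by simpa [h] using q.2.2.1
  have hC0 : C ≠ ⊥ := fun h => hq0 (Ideal.eq_bot_of_comap_eq_bot h)
  have h := T.child_dim q
  have hT : Algebra.trdeg ℂ S.R = ((T.child q).dim + 1 : ℕ) := by
    rw [← trdeg_eq_of_isIntegral (R := S.R) (S := T.R), T.dim_cast, h]
  have : q.1.LiesOver C := ⟨rfl⟩
  have hq : Algebra.trdeg ℂ (S.R ⧸ C) = (T.child q).dim := by
    rw [← trdeg_eq_of_isIntegral (R := S.R ⧸ C) (S := T.R ⧸ q.1)]
    exact (T.child q).dim_cast
  exact height_eq_one hC0 (eq_of_trdeg hT hq)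

end Extension

theorem under_stable {S T : Sys m} [Algebra S.R T.R]
    (hA : ∀ i x, algebraMap S.R T.R (S.σ i x) = T.σ i (algebraMap S.R T.R x)) {q : Ideal T.R}
    (hq : T.Stable q) : S.Stable (q.under S.R) := fun i => by
  ext x
  simp only [Ideal.under, Ideal.mem_comap, hA]
  exact SetLike.ext_iff.1 (hq i) _

/-- The least index whose involution moves a prime. -/
noncomputable def firstMove (T : Sys m) (q : PrimeSpectrum T.R)
    (h : ∃ i, q.asIdeal.comap (T.σ i) ≠ q.asIdeal) : Fin m :=
  Fin.find _ h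

/-- **Pushforward of cycles.** -/
theorem push : PushStmt := by
  intro m S T E w f hf hfw hdeg
  classical
  let _ := E.φ.toRingHom.toAlgebra
  have : IsScalarTower ℂ S.R T.R := IsScalarTower.of_algebraMap_eq fun x => (E.φ.commutes x).symm
  have : Module.Finite S.R T.R := E.fin
  have : FaithfulSMul S.R T.R := (faithfulSMul_iff_algebraMap_injective _ _).2 E.inj
  have hA : ∀ i x, algebraMap S.R T.R (S.σ i x) = T.σ i (algebraMap S.R T.R x) := E.equiv
  set g := algebraMap S.R T.R f with hgdef
  have hg : g ≠ 0 := (map_ne_zero_iff _ E.inj).2 hf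
  have hn : E.deg = Module.finrank S.R T.R := rfl
  have hfinS : {C : S.Child | f ∈ C.1}.Finite :=
    ((finite_containing hf).preimage Subtype.val_injective.injOn).subset
      fun C hC => ⟨C.2.1, C.2.2.1, hC⟩
  have hfinT : {q : T.Child | g ∈ q.1}.Finite :=
    ((finite_containing hg).preimage Subtype.val_injective.injOn).subset
      fun C hC => ⟨C.2.1, C.2.2.1, hC⟩
  set sA := hfinS.toFinset with hsA
  set sB := hfinT.toFinset with hsB
  let π : T.Child → S.Child := fun q =>
    ⟨q.1.under S.R, inferInstance, height_under q, under_stable hA q.2.2.2⟩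
  show T.cyc g = _
  rw [cyc_eq_sum T g sB fun C hC => hfinT.mem_toFinset.2 hC,
    cyc_eq_sum S f sA fun C hC => hfinS.mem_toFinset.2 hC, Finset.mul_sum,
    ← Finset.sum_fiberwise_of_maps_to (t := sA) (g := π) fun q hq =>
      hfinS.mem_toFinset.2 (Ideal.mem_comap.2 (hfinT.mem_toFinset.1 hq))]
  refine Finset.sum_congr rfl fun C hCA => ?_
  have hfC : f ∈ C.1 := hfinS.mem_toFinset.1 hCA
  -- the primes over `C`
  have hfib : {q : PrimeSpectrum T.R | q.asIdeal.under S.R = C.1}.Finite :=
    ((Algebra.QuasiFinite.finite_primesOver (S := T.R) C.1).preimage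
      (fun a _ b _ h => PrimeSpectrum.ext h)).subset fun q hq => ⟨q.2, ⟨hq.symm⟩⟩
  set s := hfib.toFinset with hs
  have hs' : ∀ q, q ∈ s ↔ q.asIdeal.under S.R = C.1 := fun q => hfib.mem_toFinset
  have hC1 := eq_of_height_one C.2.2.1
  -- the degree of a prime over `C`
  let qm : ∀ q : PrimeSpectrum T.R, q.asIdeal.under S.R = C.1 → (S.R ⧸ C.1 →+* T.R ⧸ q.asIdeal) :=
    fun q h => Ideal.quotientMap q.asIdeal (algebraMap S.R T.R) h.ge
  let d : PrimeSpectrum T.R → ℕ := fun q => (lenAt C.1 (T.R ⧸ q.asIdeal)).toNat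
  have hd : ∀ q (h : q.asIdeal.under S.R = C.1),
      letI := (qm q h).toAlgebra
      lenAt C.1 (T.R ⧸ q.asIdeal) = Module.finrank (S.R ⧸ C.1) (T.R ⧸ q.asIdeal) := by
    intro q h
    let _ := (qm q h).toAlgebra
    have : IsScalarTower S.R (S.R ⧸ C.1) (T.R ⧸ q.asIdeal) :=
      IsScalarTower.of_algebraMap_eq fun x => rfl
    have : Module.Finite (S.R ⧸ C.1) (T.R ⧸ q.asIdeal) :=
      Module.Finite.of_restrictScalars_finite S.R _ _
    exact lenAt_eq_finrank C.1 _
  -- the length identity
  have key : (E.deg * S.ordAt C.1 f : ℕ) = ∑ q ∈ s, d q * T.ordAt q.asIdeal g := by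
    have hinj : Function.Injective (LinearMap.lsmul S.R T.R f) := fun a b hab => by
      simp only [LinearMap.lsmul_apply, Algebra.smul_def] at hab
      exact mul_left_cancel₀ hg hab
    have h1 := lenAt_rank C.1 hC1 T.R hinj
    have hr : LinearMap.range (LinearMap.lsmul S.R T.R f)
        = (Ideal.span {g}).restrictScalars S.R := by
      ext x
      simp only [Submodule.restrictScalars_mem, Ideal.mem_span_singleton', LinearMap.mem_range,
        LinearMap.lsmul_apply, Algebra.smul_def, hgdef]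
      exact exists_congr fun a => by rw [mul_comm]
    rw [lenAt_congr C.1 ((Submodule.quotEquivOfEq _ _ hr).trans
        (Submodule.Quotient.restrictScalarsEquiv S.R _)),
      lenAt_fibre C.1 hC1 s hs' hg (T.R ⧸ Ideal.span {g}) inferInstance fun x => by
        obtain ⟨x, rfl⟩ := Ideal.Quotient.mk_surjective x
        rw [Algebra.smul_def, Ideal.Quotient.algebraMap_eq, ← map_mul,
          Ideal.Quotient.eq_zero_iff_mem]
        exact Ideal.mul_mem_right _ _ (Ideal.mem_span_singleton_self g), lenAt_span] at h1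
    have hK : ∀ (R : Type) [CommRing R] [IsDomain R] [IsNoetherianRing R] (P : Ideal R) [P.IsPrime],
        P.height = 1 → ∀ {x : R}, x ≠ 0 →
          Ring.ord (Localization.AtPrime P) (algebraMap R _ x) ≠ ⊤ := by
      intro R _ _ _ P _ hP x hx
      rw [← lenAt_span]
      refine lenAt_ne_top P (eq_of_height_one hP) hx _ inferInstance fun y => ?_
      obtain ⟨y, rfl⟩ := Ideal.Quotient.mk_surjective y
      rw [Algebra.smul_def, Ideal.Quotient.algebraMap_eq, ← map_mul,
        Ideal.Quotient.eq_zero_iff_mem]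
      exact Ideal.mul_mem_right _ _ (Ideal.mem_span_singleton_self x)
    have h2 : ((E.deg * S.ordAt C.1 f : ℕ) : ℕ∞) = ((∑ q ∈ s, d q * T.ordAt q.asIdeal g : ℕ) : ℕ∞) := by
      simp only [Nat.cast_mul, Nat.cast_sum, Sys.ordAt, d]
      rw [ENat.natCast_toNat (hK _ C.1 C.2.2.1 hf), hn, ← h1]
      refine Finset.sum_congr rfl fun q hq => ?_
      rw [ENat.natCast_toNat (by rw [hd q ((hs' q).1 hq)]; exact ENat.natCast_ne_top _),
        ENat.natCast_toNat (hK _ q.asIdeal (height_over C.2.2.1 _ ((hs' q).1 hq)) hg), lenAt_span]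
    exact_mod_cast h2
  rw [← mul_assoc, ← Nat.cast_mul, key, Nat.cast_sum, Finset.sum_mul]
  set G : PrimeSpectrum T.R → Fld m :=
    fun q => ((d q * T.ordAt q.asIdeal g : ℕ) : Fld m) * (S.child C).e with hG
  -- moved primes cancel in pairs
  have hmoved : ∑ q ∈ s with ¬ T.Stable q.asIdeal, G q = 0 := by
    have hex : ∀ q : PrimeSpectrum T.R, ¬ T.Stable q.asIdeal →
        ∃ i, q.asIdeal.comap (T.σ i) ≠ q.asIdeal := fun q hq => by
      simpa only [Sys.Stable, not_forall] using hq
    let mv : Fin m → PrimeSpectrum T.R → PrimeSpectrum T.R := fun i q =>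
      ⟨q.asIdeal.comap (T.σ i), inferInstance⟩
    have hmv : ∀ i q, mv i (mv i q) = q := fun i q => PrimeSpectrum.ext (by
      ext x; simp [mv, T.invol])
    have hmvc : ∀ i j q, mv i (mv j q) = mv j (mv i q) := fun i j q => PrimeSpectrum.ext (by
      ext x; simp [mv, T.comm i j])
    have hiff : ∀ i j q, (mv j (mv i q)).asIdeal = (mv i q).asIdeal ↔
        (mv j q).asIdeal = q.asIdeal := by
      intro i j q
      constructor
      · intro h
        rw [hmvc j i q] at h
        have := congrArg (mv i) (PrimeSpectrum.ext h)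
        rw [hmv, hmv] at this
        exact congrArg PrimeSpectrum.asIdeal this
      · intro h
        rw [hmvc j i q, PrimeSpectrum.ext h]
    have hover : ∀ i q, q.asIdeal.under S.R = C.1 → (mv i q).asIdeal.under S.R = C.1 := by
      intro i q h
      ext x
      simp only [Ideal.under, Ideal.mem_comap, mv, ← hA]
      exact ((SetLike.ext_iff.1 h) _).trans (SetLike.ext_iff.1 (C.2.2.2 i) x)
    have hval : ∀ i q, q.asIdeal.under S.R = C.1 → G (mv i q) = G q := by
      intro i q h
      have hd' : d (mv i q) = d q := by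
        let eS := (S.quot C.1 C.2.2.2).σ i
        let eT : T.R ⧸ (mv i q).asIdeal ≃+* T.R ⧸ q.asIdeal :=
          Ideal.quotientEquiv (mv i q).asIdeal q.asIdeal (T.σ i).toRingEquiv
            (Ideal.map_comap_of_surjective _ (T.σ i).surjective q.asIdeal).symm
        let _ := (qm q h).toAlgebra
        let _ := (qm _ (hover i q h)).toAlgebra
        simp only [d, hd q h, hd _ (hover i q h), ENat.toNat_natCast, Module.finrank]
        congr 1
        refine rank_eq_of_equiv_equiv eS eT.toAddEquiv eS.bijective fun r x => ?_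
        obtain ⟨r, rfl⟩ := Ideal.Quotient.mk_surjective r
        show eT (qm _ (hover i q h) (Ideal.Quotient.mk C.1 r) * x)
          = qm q h (eS (Ideal.Quotient.mk C.1 r)) * eT x
        refine (map_mul eT _ _).trans ?_
        congr 1
        exact congrArg (Ideal.Quotient.mk q.asIdeal) (hA i r).symm
      have ho : T.ordAt (mv i q).asIdeal g = T.ordAt q.asIdeal g := by
        have h1 := ord_atPrime_ringEquiv (T.σ i).toRingEquiv (mv i q).asIdeal q.asIdeal rfl g
        unfold Sys.ordAt
        rw [← h1]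
        congr 1
        have hgi : T.σ i g = (sgn (w i) : T.R) * g := hfw.map _ hA i
        have hu : IsUnit (algebraMap T.R (Localization.AtPrime q.asIdeal) (sgn (w i) : T.R)) := by
          refine IsUnit.map _ ?_
          unfold sgn
          split <;> simp
        show Ring.ord _ (algebraMap _ _ (T.σ i g)) = _
        rw [hgi, map_mul]
        exact Ring.ord_mul_of_isUnit_left hu _
      simp only [hG, hd', ho]
    refine Finset.sum_involution
      (fun q hq => mv (firstMove T q (hex q (Finset.mem_filter.1 hq).2)) q) ?_ ?_ ?_ ?_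
    · intro q hq
      obtain ⟨hqs, -⟩ := Finset.mem_filter.1 hq
      rw [hval _ q ((hs' q).1 hqs), ← two_mul, two_eq_zero, zero_mul]
    · intro q hq _ h
      exact Fin.find_spec (hex q (Finset.mem_filter.1 hq).2) (congrArg PrimeSpectrum.asIdeal h)
    · intro q hq
      obtain ⟨hqs, hqn⟩ := Finset.mem_filter.1 hq
      refine Finset.mem_filter.2 ⟨(hs' _).2 (hover _ q ((hs' q).1 hqs)), fun hst => ?_⟩
      obtain ⟨j, hj⟩ := hex q hqn
      exact hj ((hiff _ j q).1 (hst j))
    · intro q hq
      obtain ⟨-, hqn⟩ := Finset.mem_filter.1 hq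
      set i := firstMove T q (hex q hqn) with hi
      have : ∀ h', firstMove T (mv i q) h' = i := by
        intro h'
        unfold firstMove
        rw [Fin.find_eq_iff]
        refine ⟨fun h => Fin.find_spec (hex q hqn) ((hiff i i q).1 h), fun j hj h => ?_⟩
        exact Fin.find_min (hex q hqn) hj fun h2 => h ((hiff i j q).2 h2)
      show mv (firstMove T (mv i q) _) (mv i q) = q
      rw [this]
      exact hmv i q
  rw [← Finset.sum_filter_add_sum_filter_not s (fun q => T.Stable q.asIdeal), hmoved, add_zero]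
  -- the stable primes are the children over `C`
  refine Finset.sum_bij (fun q _ => (⟨q.1, q.2.1⟩ : PrimeSpectrum T.R)) ?_ ?_ ?_ ?_
  · intro q hq
    obtain ⟨-, hqC⟩ := Finset.mem_filter.1 hq
    exact Finset.mem_filter.2 ⟨(hs' _).2 (congrArg Subtype.val hqC), q.2.2.2⟩
  · intro a _ b _ h
    exact Subtype.ext (congrArg PrimeSpectrum.asIdeal h)
  · intro q hq
    obtain ⟨hqs, hqst⟩ := Finset.mem_filter.1 hq
    have hqC := (hs' q).1 hqs
    let q' : T.Child := ⟨q.asIdeal, q.2, height_over C.2.2.1 _ hqC, hqst⟩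
    refine ⟨q', Finset.mem_filter.2 ⟨hfinT.mem_toFinset.2 ?_, Subtype.ext hqC⟩, rfl⟩
    show f ∈ q.asIdeal.under S.R
    rw [hqC]; exact hfC
  · intro q hq
    obtain ⟨-, hqC⟩ := Finset.mem_filter.1 hq
    have hu : q.1.under S.R = C.1 := congrArg Subtype.val hqC
    let E' : FinExt (S.child C) (T.child q) :=
      { φ := Ideal.quotientMapₐ q.1 E.φ hu.ge
        equiv := fun i x => by
          obtain ⟨x, rfl⟩ := Ideal.Quotient.mk_surjective x
          exact congrArg (Ideal.Quotient.mk q.1) (E.equiv i x)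
        inj := Ideal.quotientMap_injective' (H := hu.ge) hu.le
        fin := by
          refine RingHom.Finite.of_comp_finite (f := Ideal.Quotient.mk C.1) ?_
          show ((Ideal.Quotient.mk q.1).comp E.φ.toRingHom).Finite
          exact (RingHom.Finite.of_surjective _ Ideal.Quotient.mk_surjective).comp E.fin }
    have hlt : (S.child C).dim < S.dim := by have := S.child_dim C; omega
    have hE : (T.child q).e = (E'.deg : Fld m) * (S.child C).e := hdeg _ _ E' hlt
    have hdq : d ⟨q.1, q.2.1⟩ = E'.deg := by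
      simp only [d, hd ⟨q.1, q.2.1⟩ hu, ENat.toNat_natCast]
      rfl
    simp only [hE, ← hdq]
    push_cast
    ring

end Vale.Agent.P199.Mult.Push
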