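import Vale.Agent.P199.Mult.Form
import Vale.Agent.P199.Mult.Push

/-!
# P199: independence and degree formula
-/

namespace Vale.Agent.P199.Mult

theorem formStmt : FormStmt := formStmt_of_push Push.push

theorem degStmt : DegStmt := degStmt_of_push Push.push

end Vale.Agent.P199.Mult
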