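import Vale.Agent.P199.Mult.Good
import Vale.Agent.P199.Mult.Cut
import Vale.Agent.P199.Mult.Irred
import Vale.Agent.P199.Mult.Top

/-!
# P199: the counterexample, from the two remaining modules, in the form of the question
-/

namespace Vale.Agent.P199.Mult

/-- The T-module and products give both negative answers. -/
theorem kurosh_of_sigma_prod (hS : SigmaStmt) (hP : ProdStmt) : KuroshFails :=
  kurosh_of_stmts (tStmt_of_sigmaStmt hS) hP (cut_of_form formStmt) (irred_of_deg degStmt)

/-- The two negative answers, with a finite generating set and no auxiliary definition. -/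
theorem kurosh_question_of (h : KuroshFails) :
    ∃ (k D : Type) (_ : Field k) (_ : DivisionRing D) (_ : Algebra k D) (S : Finset D),
      Algebra.IsAlgebraic k D ∧ Algebra.adjoin k (S : Set D) = ⊤ ∧ ¬ Module.Finite k D ∧
      Algebra.IsAlgebraic (Subring.center D) D ∧
      ¬ Module.Finite (Subring.center D) ↥(Algebra.adjoin (Subring.center D) (S : Set D)) := by
  classical
  obtain ⟨k, D, hk, hD, hA, x, y, hgen, halg, hfin, halgc, hfinc⟩ := h
  refine ⟨k, D, hk, hD, hA, {x, y}, halg, by simpa using hgen, hfin, halgc, ?_⟩
  have htop : Algebra.adjoin (Subring.center D) (({x, y} : Finset D) : Set D) = ⊤ := by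
    refine eq_top_iff.2 fun d htd => ?_
    clear htd
    have hd : d ∈ Algebra.adjoin k ({x, y} : Set D) := hgen.ge Algebra.mem_top
    induction hd using Algebra.adjoin_induction with
    | mem a ha => exact Algebra.subset_adjoin (by simpa using ha)
    | algebraMap r =>
      have hr : algebraMap k D r ∈ Subring.center D :=
        Subring.mem_center_iff.2 fun g => (Algebra.commutes r g).symm
      exact (Algebra.adjoin (Subring.center D) _).algebraMap_mem ⟨_, hr⟩
    | add a b _ _ ha hb => exact add_mem ha hb
    | mul a b _ _ ha hb => exact mul_mem ha hb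
  intro hF
  rw [htop] at hF
  exact hfinc (Module.Finite.equiv Subalgebra.topEquiv.toLinearEquiv)

end Vale.Agent.P199.Mult
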