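import Vale.Agent.P199.Mult.Facts

/-!
# P199: the normalisation of a system
-/

namespace Vale.Agent.P199.Mult

variable {m : ℕ}

namespace Sys

variable (S : Sys m)

theorem σK_algebraMap (i : Fin m) (a : S.R) :
    S.σK i (algebraMap S.R (FractionRing S.R) a) = algebraMap S.R _ (S.σ i a) :=
  IsFractionRing.ringEquivOfRingEquiv_algebraMap (S.σ i).toRingEquiv a

theorem σK_invol (i : Fin m) (z : FractionRing S.R) : S.σK i (S.σK i z) = z := by
  obtain ⟨a, b, -, rfl⟩ := IsFractionRing.div_surjective (A := S.R) z
  simp [map_div₀, σK_algebraMap, S.invol]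

theorem σK_comm (i j : Fin m) (z : FractionRing S.R) :
    S.σK i (S.σK j z) = S.σK j (S.σK i z) := by
  obtain ⟨a, b, -, rfl⟩ := IsFractionRing.div_surjective (A := S.R) z
  simp [map_div₀, σK_algebraMap, S.comm i j]

theorem σK_complex (i : Fin m) (c : ℂ) :
    S.σK i (algebraMap ℂ (FractionRing S.R) c) = algebraMap ℂ (FractionRing S.R) c := by
  rw [IsScalarTower.algebraMap_apply ℂ S.R (FractionRing S.R), σK_algebraMap, AlgEquiv.commutes]

theorem σK_integral (i : Fin m) {z : FractionRing S.R} (hz : IsIntegral S.R z) :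
    IsIntegral S.R (S.σK i z) :=
  hz.map_of_comp_eq (S.σ i : S.R →+* S.R) (S.σK i) (RingHom.ext fun a => (S.σK_algebraMap i a).symm)

/-- The ring of the normalisation. -/
abbrev normRing : Type := integralClosure S.R (FractionRing S.R)

/-- An involution of the normalisation. -/
noncomputable def normσ (i : Fin m) : S.normRing ≃ₐ[ℂ] S.normRing where
  toFun z := ⟨S.σK i z.1, S.σK_integral i z.2⟩
  invFun z := ⟨S.σK i z.1, S.σK_integral i z.2⟩
  left_inv z := Subtype.ext (S.σK_invol i z.1)
  right_inv z := Subtype.ext (S.σK_invol i z.1)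
  map_mul' x y := Subtype.ext (map_mul (S.σK i) x.1 y.1)
  map_add' x y := Subtype.ext (map_add (S.σK i) x.1 y.1)
  commutes' c := Subtype.ext (S.σK_complex i c)

theorem normσ_algebraMap (i : Fin m) (a : S.R) :
    S.normσ i (algebraMap S.R S.normRing a) = algebraMap S.R S.normRing (S.σ i a) :=
  Subtype.ext (S.σK_algebraMap i a)

/-- The normalisation. -/
noncomputable def norm : Sys m where
  R := S.normRing
  ft := (integralClosure_props ℂ (R := S.R) (K := FractionRing S.R)).1
  σ := S.normσ
  invol i z := Subtype.ext (S.σK_invol i z.1)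
  comm i j z := Subtype.ext (S.σK_comm i j z.1)
  pointed z := by
    obtain ⟨p, hp, hp'⟩ : IsIntegral S.R z := (integralClosure.isIntegral (R := S.R) z)
    let B := Algebra.adjoin ℂ {y : S.normRing | ∃ w : Wt m, w ≠ 0 ∧ SemiInv S.normσ w y}
    let A := Algebra.adjoin ℂ {y : S.R | ∃ w : Wt m, w ≠ 0 ∧ SemiInv S.σ w y}
    have hle : A.map (IsScalarTower.toAlgHom ℂ S.R S.normRing) ≤ B := by
      rw [AlgHom.map_adjoin]
      refine Algebra.adjoin_mono ?_
      rintro _ ⟨y, ⟨w, hw, hy⟩, rfl⟩
      exact ⟨w, hw, hy.map (algebraMap S.R S.normRing) fun i x => (S.normσ_algebraMap i x).symm⟩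
    let φ : A →+* B := ((algebraMap S.R S.normRing).comp A.val.toRingHom).codRestrict B
      fun a => hle ⟨a, a.2, rfl⟩
    have : Algebra.IsIntegral A S.R := ⟨S.pointed⟩
    have hz : IsIntegral A z := isIntegral_trans (A := S.R) z ⟨p, hp, hp'⟩
    exact hz.map_of_comp_eq φ (RingHom.id S.normRing) (RingHom.ext fun a => rfl)

instance normal_norm : IsIntegrallyClosed S.norm.R :=
  (integralClosure_props ℂ (R := S.R) (K := FractionRing S.R)).2.2.1

/-- The normalisation as a finite extension. -/
noncomputable def normExt : FinExt S S.norm where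
  φ := (IsScalarTower.toAlgHom ℂ S.R S.normRing : S.R →ₐ[ℂ] S.normRing)
  equiv i x := (S.normσ_algebraMap i x).symm
  inj {x y} h := IsFractionRing.injective S.R (FractionRing S.R) (congrArg Subtype.val h :)
  fin := (RingHom.finite_algebraMap (A := S.R) (B := S.normRing)).2
    (integralClosure_finite ℂ (R := S.R) (K := FractionRing S.R))

theorem normExt_deg : S.normExt.deg = 1 := by
  change @Module.finrank S.R S.normRing _ _
    (@Algebra.toModule _ _ _ _ (algebraMap S.R S.normRing).toAlgebra) = 1
  rw [show (algebraMap S.R S.normRing).toAlgebra = (integralClosure S.R (FractionRing S.R)).algebra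
    from Algebra.algebra_ext _ _ fun r => rfl]
  have : IsFractionRing S.normRing (FractionRing S.R) :=
    (integralClosure_props ℂ (R := S.R) (K := FractionRing S.R)).2.2.2
  have : Module.Finite S.R S.normRing :=
    integralClosure_finite ℂ (R := S.R) (K := FractionRing S.R)
  have : FaithfulSMul S.R S.normRing := (faithfulSMul_iff_algebraMap_injective _ _).2
    fun x y h => IsFractionRing.injective S.R (FractionRing S.R) (congrArg Subtype.val h :)
  have : Algebra.IsAlgebraic S.R S.normRing := Algebra.IsIntegral.isAlgebraic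
  rw [← IsFractionRing.finrank_eq S.R (FractionRing S.R) S.normRing (FractionRing S.R),
    Module.finrank_self]

end Sys

/-- A finite extension has the same dimension. -/
theorem FinExt.dim_eq {S T : Sys m} (E : FinExt S T) : T.dim = S.dim := by
  let _ := E.φ.toRingHom.toAlgebra
  have : Module.Finite S.R T.R := E.fin
  have : IsScalarTower ℂ S.R T.R := IsScalarTower.of_algebraMap_eq fun c => (E.φ.commutes c).symm
  have : FaithfulSMul S.R T.R := (faithfulSMul_iff_algebraMap_injective _ _).2 E.inj
  have h := trdeg_eq_of_isIntegral (k := ℂ) (R := S.R) (S := T.R)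
  rw [Sys.dim, Sys.dim, h]

end Vale.Agent.P199.Mult
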