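import Vale.Agent.P199.CommAlg

/-!
# P199: tensor products over `ℂ` of finitely generated domains
-/

namespace Vale.Agent.P199.Tensor

open TensorProduct

variable {R T : Type} [CommRing R] [IsDomain R] [Algebra ℂ R] [Algebra.FiniteType ℂ R]
  [CommRing T] [IsDomain T] [Algebra ℂ T]

/-- A nonzero element is nonzero at some complex point. -/
theorem exists_point_ne_zero {a : R} (ha : a ≠ 0) : ∃ φ : R →ₐ[ℂ] ℂ, φ a ≠ 0 := by
  have hj : (⊥ : Ideal R).jacobson = ⊥ := by
    have : IsJacobsonRing R := isJacobsonRing_of_finiteType (A := ℂ)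
    exact this.out (Ideal.isRadical_bot_iff.2 inferInstance)
  have hnot : a ∉ (⊥ : Ideal R).jacobson := by rwa [hj, Ideal.mem_bot]
  rw [Ideal.jacobson, Submodule.mem_sInf] at hnot
  push Not at hnot
  obtain ⟨M, ⟨-, hM⟩, haM⟩ := hnot
  let _ := Ideal.Quotient.field M
  have : Algebra.FiniteType ℂ (R ⧸ M) :=
    Algebra.FiniteType.of_surjective (Ideal.Quotient.mkₐ ℂ M) (Ideal.Quotient.mkₐ_surjective ℂ M)
  have : Module.Finite ℂ (R ⧸ M) := finite_of_finite_type_of_isJacobsonRing ℂ (R ⧸ M)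
  let e : ℂ ≃ₐ[ℂ] R ⧸ M :=
    AlgEquiv.ofBijective (Algebra.ofId ℂ (R ⧸ M)) (IsAlgClosed.algebraMap_bijective_of_isIntegral
      (k := ℂ) (K := R ⧸ M))
  refine ⟨(e.symm : (R ⧸ M) →ₐ[ℂ] ℂ).comp (Ideal.Quotient.mkₐ ℂ M), fun h => haM ?_⟩
  rw [AlgHom.comp_apply, AlgEquiv.coe_toAlgHom, map_eq_zero_iff _ e.symm.injective,
    Ideal.Quotient.mkₐ_eq_mk, Ideal.Quotient.eq_zero_iff_mem] at h
  exact h

/-- The tensor product of domains over `ℂ` is a domain. -/
theorem isDomain : IsDomain (R ⊗[ℂ] T) := by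
  have : Nontrivial (R ⊗[ℂ] T) :=
    (Algebra.TensorProduct.includeLeft_injective (S := ℂ) (A := R) (B := T)
      (algebraMap ℂ T).injective).nontrivial
  have : NoZeroDivisors (R ⊗[ℂ] T) := by
    refine ⟨fun {x y} hxy => ?_⟩
    let b := Module.Free.chooseBasis ℂ T
    let B := Algebra.TensorProduct.basis R b
    by_contra hne
    push Not at hne
    obtain ⟨hx, hy⟩ := hne
    obtain ⟨i, hi⟩ : ∃ i, B.repr x i ≠ 0 := by
      by_contra h
      push Not at h
      exact hx (B.repr.injective (Finsupp.ext fun i => by simp [h i]))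
    obtain ⟨j, hj⟩ : ∃ j, B.repr y j ≠ 0 := by
      by_contra h
      push Not at h
      exact hy (B.repr.injective (Finsupp.ext fun i => by simp [h i]))
    obtain ⟨φ, hφ⟩ := exists_point_ne_zero (mul_ne_zero hi hj)
    let Φ : R ⊗[ℂ] T →ₐ[ℂ] T :=
      Algebra.TensorProduct.lift ((Algebra.ofId ℂ T).comp φ) (AlgHom.id ℂ T)
        fun _ _ => Commute.all _ _
    have hΦ : ∀ (z : R ⊗[ℂ] T) k, b.repr (Φ z) k = φ (B.repr z k) := by
      intro z k
      induction z using TensorProduct.induction_on with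
      | zero => simp
      | add u v hu hv => simp [map_add, hu, hv]
      | tmul r t =>
        simp only [B, Algebra.TensorProduct.basis_repr_tmul, Φ, Algebra.TensorProduct.lift_tmul,
          AlgHom.comp_apply, AlgHom.coe_id, id_eq, Algebra.ofId_apply, ← Algebra.smul_def,
          map_smul, Finsupp.smul_apply, smul_eq_mul, map_mul, Finsupp.mapRange_apply]
        simp
    have h := congrArg Φ hxy
    rw [map_mul, map_zero] at h
    apply hφ
    rw [map_mul, ← hΦ, ← hΦ]
    rcases mul_eq_zero.1 h with h | h <;> simp [h]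
  exact NoZeroDivisors.to_isDomain _

/-- Transcendence degrees add. -/
theorem trdeg_eq [Algebra.FiniteType ℂ T] :
    Algebra.trdeg ℂ (R ⊗[ℂ] T) = Algebra.trdeg ℂ R + Algebra.trdeg ℂ T := by
  have := isDomain (R := R) (T := T)
  obtain ⟨d, g, hginj, hgfin⟩ := exists_finite_inj_algHom_of_fg ℂ T
  let P := MvPolynomial (Fin d) ℂ
  have hT : Algebra.trdeg ℂ T = d := by
    let _ := g.toRingHom.toAlgebra
    have : Module.Finite P T := hgfin
    have : FaithfulSMul P T := (faithfulSMul_iff_algebraMap_injective _ _).2 hginj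
    have : IsScalarTower ℂ P T := IsScalarTower.of_algebraMap_eq fun x => (g.commutes x).symm
    rw [trdeg_eq_of_isIntegral (R := P), MvPolynomial.trdeg_of_isDomain]
    simp
  let G : MvPolynomial (Fin d) R →ₐ[R] R ⊗[ℂ] T :=
    (Algebra.TensorProduct.map (AlgHom.id R R) g).comp
      (MvPolynomial.algebraTensorAlgEquiv ℂ R).symm.toAlgHom
  have hGinj : Function.Injective G := by
    intro u v h
    exact (MvPolynomial.algebraTensorAlgEquiv ℂ R).symm.injective
      (Module.Flat.lTensor_preserves_injective_linearMap (M := R) g.toLinearMap hginj h)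
  let _ := G.toRingHom.toAlgebra
  have : IsScalarTower ℂ (MvPolynomial (Fin d) R) (R ⊗[ℂ] T) := by
    refine IsScalarTower.of_algebraMap_eq fun x => ?_
    rw [IsScalarTower.algebraMap_apply ℂ R (MvPolynomial (Fin d) R)]
    exact ((IsScalarTower.algebraMap_apply ℂ R (R ⊗[ℂ] T) x).trans (G.commutes _).symm)
  have : FaithfulSMul (MvPolynomial (Fin d) R) (R ⊗[ℂ] T) :=
    (faithfulSMul_iff_algebraMap_injective _ _).2 hGinj
  have : Algebra.IsIntegral (MvPolynomial (Fin d) R) (R ⊗[ℂ] T) := by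
    constructor
    intro z
    have hg : ∀ p : P, ∃ q, G q = (1 : R) ⊗ₜ[ℂ] g p := fun p =>
      ⟨MvPolynomial.algebraTensorAlgEquiv ℂ R (1 ⊗ₜ p), by simp [G]⟩
    induction z using TensorProduct.induction_on with
    | zero => exact isIntegral_zero
    | add u v hu hv => exact hu.add hv
    | tmul r t =>
      have h1 : (r ⊗ₜ[ℂ] t) = G (MvPolynomial.C r) * (1 ⊗ₜ[ℂ] t) := by
        rw [← MvPolynomial.algebraMap_eq, G.commutes, Algebra.TensorProduct.algebraMap_apply,
          Algebra.TensorProduct.tmul_mul_tmul]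
        simp
      rw [h1]
      refine (isIntegral_algebraMap).mul ?_
      obtain ⟨p, hp, hpt⟩ := hgfin.to_isIntegral t
      let ι : P →+* MvPolynomial (Fin d) R :=
        (MvPolynomial.algebraTensorAlgEquiv ℂ R).toRingEquiv.toRingHom.comp
          (Algebra.TensorProduct.includeRight : P →ₐ[ℂ] R ⊗[ℂ] P).toRingHom
      refine ⟨p.map ι, hp.map ι, ?_⟩
      rw [Polynomial.eval₂_map]
      have : (algebraMap (MvPolynomial (Fin d) R) (R ⊗[ℂ] T)).comp ι =
          (Algebra.TensorProduct.includeRight : T →ₐ[ℂ] R ⊗[ℂ] T).toRingHom.comp g.toRingHom := by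
        refine RingHom.ext fun q => ?_
        change G (MvPolynomial.algebraTensorAlgEquiv ℂ R (1 ⊗ₜ q)) = 1 ⊗ₜ g q
        simp [G]
      rw [this, show (1 : R) ⊗ₜ[ℂ] t =
        (Algebra.TensorProduct.includeRight : T →ₐ[ℂ] R ⊗[ℂ] T).toRingHom t from rfl,
        ← Polynomial.hom_eval₂, hpt, map_zero]
  rw [trdeg_eq_of_isIntegral (R := MvPolynomial (Fin d) R), hT,
    ← trdeg_add_eq ℂ R (A := MvPolynomial (Fin d) R), MvPolynomial.trdeg_of_isDomain]
  simp

end Vale.Agent.P199.Tensor
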