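import Vale.Agent.P199.Mult.Local
import Vale.Agent.P199.Mult.Tensor

/-!
# P199: products of systems

The multiplicity of a product is the product of the multiplicities, given independence of the
cutting semi-invariant and the degree formula.
-/

namespace Vale.Agent.P199.Mult

open TensorProduct

variable {m : ℕ}

/-- An isomorphism has degree one. -/
theorem FinExt.deg_of_bij {S T : Sys m} (E : FinExt S T) (h : Function.Bijective E.φ) :
    E.deg = 1 := by
  let := E.φ.toRingHom.toAlgebra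
  change Module.finrank S.R T.R = 1
  rw [← (LinearEquiv.ofBijective (Algebra.linearMap S.R T.R) h).finrank_eq, Module.finrank_self]

/-- An isomorphism keeps the multiplicity. -/
theorem e_eq_of_bijective (hDeg : DegStmt) {S T : Sys m} (f : Hom S T)
    (h : Function.Bijective f.φ) : T.e = S.e := by
  let E : FinExt S T := { f with inj := h.1, fin := RingHom.Finite.of_surjective _ h.2 }
  have := hDeg S T E
  rw [DegAt, E.deg_of_bij h, Nat.cast_one, one_mul] at this
  exact this

namespace Sys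

variable (S T : Sys m)

/-- An involution of a product. -/
noncomputable def prodσ (i : Fin m) : S.R ⊗[ℂ] T.R ≃ₐ[ℂ] S.R ⊗[ℂ] T.R :=
  Algebra.TensorProduct.congr (S.σ i) (T.σ i)

theorem prodσ_tmul (i : Fin m) (a : S.R) (b : T.R) :
    S.prodσ T i (a ⊗ₜ b) = S.σ i a ⊗ₜ T.σ i b := by
  simp [prodσ]

/-- The product of two systems. -/
noncomputable abbrev prod : Sys m where
  R := S.R ⊗[ℂ] T.R
  dom := Tensor.isDomain
  ft := Algebra.FiniteType.trans S.ft (inferInstance : Algebra.FiniteType S.R (S.R ⊗[ℂ] T.R))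
  σ := S.prodσ T
  invol i x := by
    induction x using TensorProduct.induction_on with
    | zero => simp
    | add u v hu hv => rw [map_add, map_add, hu, hv]
    | tmul a b => rw [prodσ_tmul, prodσ_tmul, S.invol, T.invol]
  comm i j x := by
    induction x using TensorProduct.induction_on with
    | zero => simp
    | add u v hu hv => simp only [map_add, hu, hv]
    | tmul a b => rw [prodσ_tmul, prodσ_tmul, prodσ_tmul, prodσ_tmul, S.comm, T.comm]
  pointed x := by
    let B := Algebra.adjoin ℂ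
      {y : S.R ⊗[ℂ] T.R | ∃ w : Wt m, w ≠ 0 ∧ SemiInv (S.prodσ T) w y}
    have key : ∀ (U : Sys m) (φ : U.R →ₐ[ℂ] S.R ⊗[ℂ] T.R),
        (∀ i a, φ (U.σ i a) = S.prodσ T i (φ a)) → ∀ a, IsIntegral B (φ a) := by
      intro U φ hφ a
      let A := Algebra.adjoin ℂ {y : U.R | ∃ w : Wt m, w ≠ 0 ∧ SemiInv U.σ w y}
      have hle : A.map φ ≤ B := by
        rw [AlgHom.map_adjoin]
        refine Algebra.adjoin_mono ?_
        rintro _ ⟨y, ⟨w, hw, hy⟩, rfl⟩
        exact ⟨w, hw, hy.map φ.toRingHom hφ⟩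
      let ψ : A →+* B := (φ.toRingHom.comp A.val.toRingHom).codRestrict B
        fun z => hle ⟨z, z.2, rfl⟩
      exact IsIntegral.map_of_comp_eq ψ φ.toRingHom (by ext z; rfl) (U.pointed a)
    induction x using TensorProduct.induction_on with
    | zero => exact isIntegral_zero
    | add u v hu hv => exact hu.add hv
    | tmul a b =>
      have h : a ⊗ₜ[ℂ] b = (Algebra.TensorProduct.includeLeft : S.R →ₐ[ℂ] _) a *
          (Algebra.TensorProduct.includeRight : T.R →ₐ[ℂ] S.R ⊗[ℂ] T.R) b := by simp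
      rw [h]
      exact (key S Algebra.TensorProduct.includeLeft (fun i a => by simp [prodσ_tmul]) a).mul
        (key T Algebra.TensorProduct.includeRight (fun i a => by simp [prodσ_tmul]) b)

/-- The first factor. -/
noncomputable def prodFst : Hom S (S.prod T) where
  φ := (Algebra.TensorProduct.includeLeft : S.R →ₐ[ℂ] S.R ⊗[ℂ] T.R)
  equiv i a := by
    change (S.σ i a) ⊗ₜ[ℂ] (1 : T.R) = S.prodσ T i (a ⊗ₜ 1)
    rw [prodσ_tmul, map_one]

/-- The second factor. -/
noncomputable def prodSnd : Hom T (S.prod T) where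
  φ := (Algebra.TensorProduct.includeRight : T.R →ₐ[ℂ] S.R ⊗[ℂ] T.R)
  equiv i a := by
    change (1 : S.R) ⊗ₜ[ℂ] (T.σ i a) = S.prodσ T i (1 ⊗ₜ a)
    rw [prodσ_tmul, map_one]

theorem prod_dim : (S.prod T).dim = S.dim + T.dim := by
  have h := Tensor.trdeg_eq (R := S.R) (T := T.R)
  rw [S.dim_cast, T.dim_cast] at h
  change (Algebra.trdeg ℂ (S.R ⊗[ℂ] T.R)).toNat = _
  rw [h, ← Nat.cast_add, Cardinal.toNat_natCast]

section child

variable {S} (C : Ideal S.R) [C.IsPrime]

/-- The map to the product with a quotient. -/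
noncomputable def prodMk : S.R ⊗[ℂ] T.R →ₐ[ℂ] (S.R ⧸ C) ⊗[ℂ] T.R :=
  Algebra.TensorProduct.map (Ideal.Quotient.mkₐ ℂ C) (AlgHom.id ℂ T.R)

omit [C.IsPrime] in
theorem prodMk_surjective : Function.Surjective (prodMk T C) :=
  TensorProduct.map_surjective (Ideal.Quotient.mkₐ_surjective ℂ C) Function.surjective_id

/-- The prime over a prime of the first factor. -/
noncomputable def prodIdeal : Ideal (S.R ⊗[ℂ] T.R) :=
  RingHom.ker (prodMk T C)

omit [C.IsPrime] in
theorem prodIdeal_eq_map :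
    prodIdeal T C = C.map (Algebra.TensorProduct.includeLeft : S.R →ₐ[ℂ] S.R ⊗[ℂ] T.R) := by
  refine (Algebra.TensorProduct.rTensor_ker (C := T.R) (Ideal.Quotient.mkₐ ℂ C)
    (Ideal.Quotient.mkₐ_surjective ℂ C)).trans ?_
  congr 1
  exact Ideal.Quotient.mkₐ_ker ℂ C

instance prodIdeal_isPrime : (prodIdeal T C).IsPrime :=
  have : IsDomain ((S.R ⧸ C) ⊗[ℂ] T.R) := Tensor.isDomain
  RingHom.ker_isPrime (prodMk T C).toRingHom

theorem mem_prodIdeal_left {a : S.R} :
    (a ⊗ₜ[ℂ] (1 : T.R) : S.R ⊗[ℂ] T.R) ∈ prodIdeal T C ↔ a ∈ C := by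
  rw [prodIdeal, RingHom.mem_ker, prodMk, Algebra.TensorProduct.map_tmul, map_one,
    ← Ideal.Quotient.eq_zero_iff_mem]
  exact map_eq_zero_iff (Algebra.TensorProduct.includeLeft (S := ℂ) :
    (S.R ⧸ C) →ₐ[ℂ] (S.R ⧸ C) ⊗[ℂ] T.R)
    (Algebra.TensorProduct.includeLeft_injective (algebraMap ℂ T.R).injective)

theorem qdim_prodIdeal : (S.prod T).qdim (prodIdeal T C) = S.qdim C + T.dim := by
  have h := Tensor.trdeg_eq (R := S.R ⧸ C) (T := T.R)
  have e : ((S.R ⊗[ℂ] T.R) ⧸ RingHom.ker (prodMk T C)) ≃ₐ[ℂ] (S.R ⧸ C) ⊗[ℂ] T.R :=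
    Ideal.quotientKerAlgEquivOfSurjective (prodMk_surjective T C)
  rw [← e.trdeg_eq, S.qdim_cast, T.dim_cast] at h
  change (Algebra.trdeg ℂ ((S.R ⊗[ℂ] T.R) ⧸ RingHom.ker (prodMk T C))).toNat = _
  rw [h, ← Nat.cast_add, Cardinal.toNat_natCast]

theorem height_prodIdeal (hC : C.height = 1) : (prodIdeal T C).height = 1 := by
  refine (S.prod T).height_eq_one (fun h => ?_) ?_
  · obtain ⟨a, ha, ha0⟩ := Submodule.exists_mem_ne_zero_of_ne_bot (p := C) (fun h' => by
      simp [h'] at hC)
    have := (mem_prodIdeal_left T C).2 ha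
    rw [h, Ideal.mem_bot] at this
    exact ha0 ((map_eq_zero_iff (Algebra.TensorProduct.includeLeft (S := ℂ) :
      S.R →ₐ[ℂ] S.R ⊗[ℂ] T.R)
      (Algebra.TensorProduct.includeLeft_injective (algebraMap ℂ T.R).injective)).1 this)
  · rw [qdim_prodIdeal, prod_dim]
    have := S.qdim_div hC
    omega

theorem stable_prodIdeal (hC : S.Stable C) : (S.prod T).Stable (prodIdeal T C) := by
  have hle : ∀ i, prodIdeal T C ≤ (prodIdeal T C).comap ((S.prod T).σ i) := by
    intro i
    conv_lhs => rw [prodIdeal_eq_map]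
    refine Ideal.map_le_iff_le_comap.2 fun a ha => ?_
    change S.prodσ T i (a ⊗ₜ 1) ∈ prodIdeal T C
    rw [prodσ_tmul, map_one, mem_prodIdeal_left]
    exact (hC i).ge ha
  intro i
  refine le_antisymm (fun x hx => ?_) (hle i)
  have := hle i hx
  rwa [Ideal.mem_comap, (S.prod T).invol] at this

/-- Orders at the prime over a prime of the first factor. -/
theorem ordAt_prodIdeal (f : S.R) :
    (S.prod T).ordAt (prodIdeal T C) ((S.prodFst T).φ f) = S.ordAt C f := by
  have : (RingHom.ker (prodMk T C)).IsPrime := prodIdeal_isPrime T C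
  change (Ring.ord (Localization.AtPrime (RingHom.ker (prodMk T C)))
    (algebraMap (S.R ⊗[ℂ] T.R) _ (f ⊗ₜ 1))).toNat = _
  rw [Sys.ordAt]
  congr 1
  have : (RingHom.ker (prodMk T C)).IsPrime := prodIdeal_isPrime T C
  have hover : (RingHom.ker (prodMk T C)).LiesOver C := ⟨by
    ext a
    exact (mem_prodIdeal_left T C).symm⟩
  let _ := Localization.AtPrime.algebraOfLiesOver C (RingHom.ker (prodMk T C))
  have : IsLocalHom (algebraMap (Localization.AtPrime C)
      (Localization.AtPrime (RingHom.ker (prodMk T C)))) :=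
    Localization.isLocalHom_localRingHom _ _ _ hover.over
  have halg : ∀ a : S.R, algebraMap (Localization.AtPrime C)
      (Localization.AtPrime (RingHom.ker (prodMk T C))) (algebraMap S.R _ a) =
      algebraMap (S.R ⊗[ℂ] T.R) _ (a ⊗ₜ 1) := fun a =>
    Localization.localRingHom_to_map _ _ _ hover.over a
  have hmax : (IsLocalRing.maximalIdeal (Localization.AtPrime C)).map (algebraMap _
      (Localization.AtPrime (RingHom.ker (prodMk T C)))) =
      IsLocalRing.maximalIdeal _ := by
    rw [← Localization.AtPrime.map_eq_maximalIdeal,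
      ← Localization.AtPrime.map_eq_maximalIdeal (I := RingHom.ker (prodMk T C))]
    refine Eq.trans ?_ (congrArg (Ideal.map (algebraMap (S.R ⊗[ℂ] T.R)
      (Localization.AtPrime (RingHom.ker (prodMk T C))))) (prodIdeal_eq_map T C).symm)
    rw [Ideal.map_map, ← Ideal.map_coe
        (Algebra.TensorProduct.includeLeft : S.R →ₐ[ℂ] S.R ⊗[ℂ] T.R), Ideal.map_map]
    congr 1
    exact RingHom.ext halg
  have hone : Module.length (Localization.AtPrime (RingHom.ker (prodMk T C)))
      (Localization.AtPrime (RingHom.ker (prodMk T C)) ⧸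
        (IsLocalRing.maximalIdeal (Localization.AtPrime C)).map (algebraMap _
          (Localization.AtPrime (RingHom.ker (prodMk T C))))) = 1 := by
    rw [hmax, Module.length_eq_one_iff]
    exact isSimpleModule_iff_quot_maximal.2 ⟨_, IsLocalRing.maximalIdeal.isMaximal _, ⟨.refl _ _⟩⟩
  have hkey := IsLocalRing.length_baseChange (Localization.AtPrime C)
    (Localization.AtPrime (RingHom.ker (prodMk T C)))
    (Localization.AtPrime C ⧸ Ideal.span {algebraMap S.R (Localization.AtPrime C) f})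
  rw [hone, mul_one, ← (Algebra.TensorProduct.quotIdealMapEquivTensorQuot
    (Localization.AtPrime (RingHom.ker (prodMk T C)))
    (Ideal.span {algebraMap S.R (Localization.AtPrime C) f})).toLinearEquiv.length_eq,
    Ideal.map_span, Set.image_singleton, halg] at hkey
  exact hkey

end child

end Sys

/-- The child of a product over a child of the first factor. -/
noncomputable def Sys.prodChild {S : Sys m} (T : Sys m) (C : S.Child) : (S.prod T).Child :=
  ⟨Sys.prodIdeal T C.1, Sys.prodIdeal_isPrime T C.1, Sys.height_prodIdeal T C.1 C.2.2.1,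
    Sys.stable_prodIdeal T C.1 C.2.2.2⟩

theorem child_prod_e (hDeg : DegStmt) (S T : Sys m) (C : S.Child) :
    ((S.child C).prod T).e = ((S.prod T).child (Sys.prodChild T C)).e := by
  let e : ((S.R ⊗[ℂ] T.R) ⧸ Sys.prodIdeal T C.1) ≃ₐ[ℂ] (S.R ⧸ C.1) ⊗[ℂ] T.R :=
    Ideal.quotientKerAlgEquivOfSurjective (Sys.prodMk_surjective T C.1)
  refine e_eq_of_bijective hDeg { φ := e.toAlgHom, equiv := fun i x => ?_ } e.bijective
  obtain ⟨x, rfl⟩ := Ideal.Quotient.mk_surjective x
  have key : (Sys.prodMk T C.1).comp (S.prodσ T i).toAlgHom =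
      (Algebra.TensorProduct.congr (Ideal.quotientEquivAlg C.1 C.1 (S.σ i) (C.2.2.2.map i))
        (T.σ i)).toAlgHom.comp (Sys.prodMk T C.1) :=
    Algebra.TensorProduct.ext' fun a b => by simp [Sys.prodMk, Sys.prodσ_tmul]
  exact DFunLike.congr_fun key x

theorem cyc_prod (S T : Sys m) {f : S.R} (hf : f ≠ 0) (hf' : (S.prodFst T).φ f ≠ 0) :
    (S.prod T).cyc ((S.prodFst T).φ f) = ∑ C ∈ (S.finite_child hf).toFinset,
      (S.ordAt C.1 f : Fld m) * ((S.prod T).child (Sys.prodChild T C)).e := by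
  classical
  rw [(S.prod T).cyc_eq_sum hf']
  refine (Finset.sum_bij (fun C _ => Sys.prodChild T C) ?_ ?_ ?_ ?_).symm
  · intro C hC
    rw [Set.Finite.mem_toFinset] at hC ⊢
    exact (Sys.mem_prodIdeal_left T C.1).2 hC
  · intro C _ D _ h
    refine Subtype.ext (Ideal.ext fun a => ?_)
    rw [← Sys.mem_prodIdeal_left T C.1, ← Sys.mem_prodIdeal_left T D.1]
    have h' : Sys.prodIdeal T C.1 = Sys.prodIdeal T D.1 := congrArg Subtype.val h
    rw [h']
  · intro Q hQ
    rw [Set.Finite.mem_toFinset] at hQ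
    let q : Ideal S.R := Q.1.comap (S.prodFst T).φ
    have hq0 : q ≠ ⊥ := fun h => hf (by
      have : f ∈ q := hQ
      rwa [h, Ideal.mem_bot] at this)
    have hQp : Q.1.IsPrime := Q.2.1
    have : q.IsPrime := Ideal.IsPrime.comap _
    obtain ⟨C, hC⟩ := S.exists_div_le hq0
    have hle : Sys.prodIdeal T C.1 ≤ Q.1 := by
      rw [Sys.prodIdeal_eq_map]
      exact Ideal.map_le_iff_le_comap.2 hC
    have hCQ : Sys.prodIdeal T C.1 = Q.1 := by
      rcases hle.lt_or_eq with hlt | he
      · have h1 := (S.prod T).qdim_lt hlt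
        have h2 := (S.prod T).qdim_div Q.2.2.1
        have h3 := (S.prod T).qdim_div (Sys.height_prodIdeal T C.1 C.2.2)
        omega
      · exact he
    have hmem : ∀ a, a ∈ C.1 ↔ (S.prodFst T).φ a ∈ Q.1 := fun a => by
      rw [← hCQ]
      exact (Sys.mem_prodIdeal_left T C.1).symm
    have hst : S.Stable C.1 := fun i => Ideal.ext fun a => by
      rw [Ideal.mem_comap, hmem, hmem, (S.prodFst T).equiv, ← Ideal.mem_comap, Q.2.2.2 i]
    refine ⟨⟨C.1, C.2.1, C.2.2, hst⟩, ?_, Subtype.ext hCQ⟩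
    exact (Set.Finite.mem_toFinset _).2 ((hmem f).2 hQ)
  · intro C _
    congr 1
    exact congrArg (Nat.cast : ℕ → Fld m) (Sys.ordAt_prodIdeal T C.1 f).symm

theorem prod_e (hForm : FormStmt) (hDeg : DegStmt) :
    ∀ (d : ℕ) (S T : Sys m), S.dim = d → (S.prod T).e = S.e * T.e := by
  intro d
  induction d with
  | zero =>
    intro S T hd
    rw [S.e_of_dim_zero hd, one_mul]
    refine e_eq_of_bijective hDeg (S.prodSnd T)
      ⟨Algebra.TensorProduct.includeRight_injective (algebraMap ℂ S.R).injective, fun x => ?_⟩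
    change ∃ b, (Algebra.TensorProduct.includeRight : T.R →ₐ[ℂ] S.R ⊗[ℂ] T.R) b = x
    induction x using TensorProduct.induction_on with
    | zero => exact ⟨0, map_zero _⟩
    | add u v hu hv =>
      obtain ⟨a, ha⟩ := hu
      obtain ⟨b, hb⟩ := hv
      exact ⟨a + b, by rw [map_add, ha, hb]⟩
    | tmul a b =>
      obtain ⟨c, rfl⟩ := (S.bijective_of_dim_zero hd).2 a
      refine ⟨c • b, ?_⟩
      rw [Algebra.TensorProduct.includeRight_apply, TensorProduct.tmul_smul,
        TensorProduct.smul_tmul', Algebra.smul_def, mul_one]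
  | succ d ih =>
    intro S T hd
    classical
    obtain ⟨w, f, hw, hf, hsf, hS⟩ := S.e_spec hd
    have hinj : Function.Injective (S.prodFst T).φ :=
      Algebra.TensorProduct.includeLeft_injective (algebraMap ℂ T.R).injective
    have hf' : (S.prodFst T).φ f ≠ 0 := (map_ne_zero_iff _ hinj).2 hf
    have hP' := hForm (S.prod T) w _ hf'
      (hsf.map (S.prodFst T).φ.toRingHom (S.prodFst T).equiv)
    apply mul_left_cancel₀ (lin_ne_zero hw)
    rw [hP', ← mul_assoc, hS, S.cyc_eq_sum hf, cyc_prod S T hf hf', Finset.sum_mul]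
    refine Finset.sum_congr rfl fun C _ => ?_
    have hdim : (S.child C).dim = d := by have := S.child_dim C; omega
    rw [mul_assoc, ← ih (S.child C) T hdim, child_prod_e hDeg S T C]

/-- **Products.** -/
theorem prodStmt (hForm : FormStmt) (hDeg : DegStmt) : ProdStmt := by
  intro m S T
  refine ⟨S.prod T, S.prodFst T, S.prodSnd T, ?_, prod_e hForm hDeg _ S T rfl, S.prod_dim T⟩
  refine eq_top_iff.2 fun x hx => ?_
  clear hx
  change (x : S.R ⊗[ℂ] T.R) ∈ Algebra.adjoin ℂ
    (Set.range (Algebra.TensorProduct.includeLeft : S.R →ₐ[ℂ] S.R ⊗[ℂ] T.R) ∪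
      Set.range (Algebra.TensorProduct.includeRight : T.R →ₐ[ℂ] S.R ⊗[ℂ] T.R))
  induction x using TensorProduct.induction_on with
  | zero => exact zero_mem _
  | add u v hu hv => exact add_mem hu hv
  | tmul a b =>
    rw [show a ⊗ₜ[ℂ] b = (a ⊗ₜ[ℂ] (1 : T.R)) * ((1 : S.R) ⊗ₜ[ℂ] b) by simp]
    exact mul_mem (Algebra.subset_adjoin (Or.inl ⟨a, rfl⟩)) (Algebra.subset_adjoin (Or.inr ⟨b, rfl⟩))

end Vale.Agent.P199.Mult
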