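import Vale.Agent.P199.Mult.Coord
import Vale.Agent.P199.Mult.Good
import Vale.Agent.P199.Spec.Blocks
import Vale.Agent.P199.Mult.Top

/-!
# P199: the T-module

For `q = 2 ^ s` and `r = 2 ^ k`: cut the traceless matrices `Z` by the coordinates of `g Z` outside
`L0` which vanish at block scalar diagonal matrices, `g` the approximate root of the
characteristic polynomial.  The result contains a point with `q` distinct eigenvalues of
multiplicity `r`, so there `g Z = 0`.
-/

namespace Vale.Agent.P199.Mult

open Pauli Division Matrix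

variable {s k n : ℕ}

theorem wt_eq_J (u : Pidx n) : wt u = J u := by
  funext i
  refine Fin.addCases (fun a => ?_) (fun a => ?_) i
  · rw [wt, gen_left, J, Fin.append_left]
    simp [dot, Pi.single_apply]
  · rw [wt, gen_right, J, Fin.append_right]
    simp [dot, Pi.single_apply]

/-- Low and high coordinates. -/
def split (s k : ℕ) : Idx (s + k) ≃ (Fin s → ZMod 2) × (Fin k → ZMod 2) :=
  (Fin.appendEquiv s k).symm

theorem split_add (x y : Idx (s + k)) : split s k (x + y) = split s k x + split s k y := rfl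

theorem split_zero : split s k 0 = 0 := rfl

/-- The variables of the low clocks. -/
def lowS (s k : ℕ) : Set (Fin ((s + k) + (s + k))) :=
  Set.range fun i : Fin s => Fin.castAdd (s + k) (Fin.castAdd k i)

/-- The low diagonal indices. -/
def IsLow (u : Pidx (s + k)) : Prop := u.1 = 0 ∧ (split s k u.2).2 = 0

theorem J_low {u : Pidx (s + k)} (h : IsLow u) : ∀ i, i ∉ lowS s k → J u i = 0 := by
  intro i hi
  induction i using Fin.addCases with
  | left a =>
    rw [J, Fin.append_left]
    induction a using Fin.addCases with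
    | left b => exact absurd ⟨b, rfl⟩ hi
    | right b => exact congrFun h.2 b
  | right a =>
    rw [J, Fin.append_right, h.1]
    rfl

theorem J_high {u : Pidx (s + k)} (h : ¬ IsLow u) : ∃ i, i ∉ lowS s k ∧ J u i ≠ 0 := by
  by_cases h1 : u.1 = 0
  · obtain ⟨b, hb⟩ := Function.ne_iff.1 (fun h2 => h ⟨h1, h2⟩)
    refine ⟨Fin.castAdd (s + k) (Fin.natAdd s b), ?_, by rw [J, Fin.append_left]; exact hb⟩
    rintro ⟨a, ha⟩
    have := congrArg Fin.val ha
    simp at this
    omega
  · obtain ⟨a, ha⟩ := Function.ne_iff.1 h1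
    refine ⟨Fin.natAdd (s + k) a, ?_, by rw [J, Fin.append_right]; exact ha⟩
    rintro ⟨b, hb⟩
    have := congrArg Fin.val hb
    simp at this
    omega

open Classical in
/-- The coordinates to be cut. -/
noncomputable def cutSet (s k : ℕ) : Finset (Pidx (s + k)) :=
  Finset.univ.filter fun u => (split s k u.1).1 = 0 ∧ ¬ IsLow u

theorem card_cutSet : (cutSet s k).card ≤ 2 ^ k * 2 ^ (s + k) := by
  classical
  refine (Finset.card_le_card_of_injOn (t := Finset.univ) (fun u => ((split s k u.1).2, u.2))
    (fun _ _ => Finset.mem_univ _) ?_).trans (le_of_eq (by simp [Idx]))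
  intro u hu v hv huv
  simp only [cutSet, Finset.coe_filter, Finset.mem_univ, true_and, Set.mem_ofPred_eq] at hu hv
  simp only [Prod.mk.injEq] at huv
  exact Prod.ext ((split s k).injective (Prod.ext (hu.1.trans hv.1.symm) huv.1)) huv.2

/-- The eigenvalues of the chosen point. -/
noncomputable def eigen (a : Fin s → ZMod 2) : ℂ := ∑ i : Fin s, (2 : ℂ) ^ (i : ℕ) * (sgn (a i) : ℂ)

theorem eigen_injective : Function.Injective (eigen (s := s)) := by
  intro a b h
  have e : ∀ t : ZMod 2, (sgn t : ℂ) = 1 - 2 * (t.val : ℂ) := by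
    intro t
    rcases Spec.zmod_two_cases t with rfl | rfl
    · simp [sgn]
    · rw [sgn, if_neg (by decide), show (1 : ZMod 2).val = 1 from rfl]
      norm_num
  simp only [eigen, e, mul_sub, Finset.sum_sub_distrib, sub_right_inj,
    mul_left_comm _ (2 : ℂ), ← Finset.mul_sum] at h
  have h' := mul_left_cancel₀ two_ne_zero h
  have hn : ∑ i : Fin s, 2 ^ (i : ℕ) * (a i).val = ∑ i : Fin s, 2 ^ (i : ℕ) * (b i).val := by
    exact_mod_cast h'
  simp only [mul_comm (2 ^ _) _] at hn
  exact finFunctionFinEquiv.injective (Fin.ext ((finFunctionFinEquiv_apply (m := 2) a).trans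
    (hn.trans (finFunctionFinEquiv_apply (m := 2) b).symm)))

/-- The coordinates of the chosen point. -/
noncomputable def ptCoord (u : Pidx (s + k)) : ℂ :=
  ∑ i : Fin s, if u = (0, Pi.single (Fin.castAdd k i) 1) then (2 : ℂ) ^ (i : ℕ) else 0

theorem ptCoord_eq_zero {u : Pidx (s + k)} (h : u = 0 ∨ ¬ IsLow u) : ptCoord u = 0 := by
  refine Finset.sum_eq_zero fun i _ => if_neg ?_
  rintro rfl
  rcases h with h | h
  · have := congrFun (congrArg Prod.snd h) (Fin.castAdd k i)
    simp at this
  · refine h ⟨rfl, funext fun b => Pi.single_eq_of_ne (fun hb => ?_) 1⟩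
    have := congrArg Fin.val hb
    simp at this
    omega

theorem matOf_ptCoord :
    matOf (ptCoord (s := s) (k := k)) = Matrix.diagonal fun x => eigen (split s k x).1 := by
  have h : matOf (ptCoord (s := s) (k := k)) =
      ∑ i : Fin s, (2 : ℂ) ^ (i : ℕ) • castMat ℂ (clock (Fin.castAdd k i)) := by
    simp only [matOf, ptCoord, Finset.sum_smul, ite_smul, zero_smul]
    rw [Finset.sum_comm]
    refine Finset.sum_congr rfl fun i _ => ?_
    rw [Finset.sum_ite_eq', if_pos (Finset.mem_univ _), pauli_clock]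
  ext x y
  rw [h, Matrix.sum_apply, Matrix.diagonal_apply]
  by_cases hxy : x = y
  · subst hxy
    simp only [if_pos, Matrix.smul_apply, castMat, Matrix.map_apply, clock,
      Matrix.diagonal_apply_eq, smul_eq_mul, eigen]
    rfl
  · simp [hxy, clock]

/-- Weight coordinates in the two ways. -/
theorem coordFn_split {R : Type*} [CommRing R] [Invertible (2 : R)]
    (M : Matrix (Idx (s + k)) (Idx (s + k)) R) (u : Pidx (s + k)) :
    Spec.coordFn (Matrix.reindex (split s k) (split s k) M) (split s k u.1) (split s k u.2) =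
      (sgn (dot u.2 u.1) : R) * 2 ^ (s + k) * coord u M := by
  have hsg : ∀ t : ZMod 2, (sgn t : R) = if t = 0 then 1 else -1 := fun t => by
    rw [sgn]; split_ifs <;> simp
  have hterm : ∀ x : Idx (s + k),
      Spec.chi (split s k u.2).1 (split s k x).1 * Spec.chi (split s k u.2).2 (split s k x).2 =
        (sgn (dot u.2 x) : R) := fun x => by
    rw [dot, Fin.sum_univ_add, Pauli.sgn_add, Int.cast_mul, hsg, hsg]
    rfl
  rw [Spec.coordFn, ← (split s k).sum_comp, coord, mul_assoc, ← mul_assoc ((2 : R) ^ _),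
    ← mul_pow, mul_invOf_self, one_pow, one_mul, Finset.mul_sum]
  refine Finset.sum_congr rfl fun x _ => ?_
  rw [hterm, ← split_add, Matrix.reindex_apply, Matrix.submatrix_apply, Equiv.symm_apply_apply,
    Equiv.symm_apply_apply, dot_add u.2 x u.1, Pauli.sgn_add, Int.cast_mul]
  have h1 : (sgn (dot u.2 u.1) : R) * (sgn (dot u.2 u.1) : R) = 1 := by
    rw [← Int.cast_mul, sgn_mul_self, Int.cast_one]
  linear_combination (-(M x (x + u.1)) * (sgn (dot u.2 x) : R)) * h1

/-- Polynomials commute with intertwiners. -/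
theorem semiconj_aeval {A X : Type*} [CommRing A] [Fintype X] [DecidableEq X]
    {H Z Z' : Matrix X X A} (h : H * Z' = Z * H) (g : Polynomial A) :
    H * Polynomial.aeval Z' g = Polynomial.aeval Z g * H := by
  induction g using Polynomial.induction_on with
  | C a => simp only [Polynomial.aeval_C]; exact (Algebra.commutes a H).symm
  | add p q hp hq => rw [map_add, map_add, mul_add, add_mul, hp, hq]
  | monomial j a ih =>
    rw [pow_succ, ← mul_assoc]
    generalize Polynomial.C a * Polynomial.X ^ j = q at ih ⊢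
    rw [map_mul (Polynomial.aeval Z'), map_mul (Polynomial.aeval Z), Polynomial.aeval_X,
      Polynomial.aeval_X, ← mul_assoc, ih, mul_assoc, h, mul_assoc]

theorem splits_valuationSubring {K : Type*} [Field K] [IsAlgClosed K] (B : ValuationSubring K)
    (P : Polynomial B) (hP : P.Monic) : P.Splits := by
  refine Polynomial.Splits.of_splits_map_of_injective (i := algebraMap B K)
    Subtype.val_injective (IsAlgClosed.splits _) fun a ha => ?_
  refine IsIntegrallyClosed.isIntegral_iff.1 ⟨P, hP, ?_⟩
  rw [← Polynomial.eval_map]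
  exact (Polynomial.mem_roots'.1 ha).2

/-- Near a point with distinct block eigenvalues vanishing cut coordinates force the equation. -/
theorem kills_of_point {T : Sys ((s + k) + (s + k))} (ε : T.R →ₐ[ℂ] ℂ)
    (Z : Matrix (Idx (s + k)) (Idx (s + k)) T.R) (g : Polynomial T.R) (hg : g.Monic)
    (hgq : g.natDegree = 2 ^ s)
    (hpow : ∀ m, 2 ^ k * 2 ^ s ≤ m + 2 ^ s → (Z.charpoly - g ^ 2 ^ k).coeff m = 0)
    (hpt : Z.map ε = Matrix.diagonal fun x => eigen (split s k x).1)
    (h0 : ∀ u ∈ cutSet s k, coord u (Polynomial.aeval Z g) = 0) :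
    Polynomial.aeval Z g = 0 := by
  classical
  set E := split s k with hE
  set Y := Polynomial.aeval Z g with hY
  obtain ⟨hblock, hscal⟩ := Spec.blocks_of_coords (isUnit_of_invertible (2 : T.R))
    (Matrix.reindex E E Y) (fun a b ha hab => by
      have e := coordFn_split Y (E.symm a, E.symm b)
      rw [hE, Equiv.apply_symm_apply, Equiv.apply_symm_apply] at e
      rw [hE, e, h0 _ ?_, mul_zero]
      refine Finset.mem_filter.2 ⟨Finset.mem_univ _, ?_⟩
      simp only [IsLow, Equiv.apply_symm_apply]
      refine ⟨ha, ?_⟩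
      rintro ⟨h1, h2⟩
      rcases hab with hab | hab
      · exact hab (congrArg Prod.snd ((Equiv.symm_apply_eq _).1 h1 : a = split s k 0))
      · exact hab h2)
  let K := AlgebraicClosure (FractionRing T.R)
  let ι : T.R →+* K := (algebraMap (FractionRing T.R) K).comp (algebraMap T.R (FractionRing T.R))
  have hι : Function.Injective ι :=
    (algebraMap (FractionRing T.R) K).injective.comp (IsFractionRing.injective _ _)
  obtain ⟨B, hAB, hB⟩ := Ideal.image_subset_nonunits_valuationSubring
    ((RingHom.ker ε).map ι.rangeRestrict) (fun htop => by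
      have h1 := congrArg (Ideal.comap ι.rangeRestrict) htop
      rw [Ideal.comap_map_of_bijective _ ⟨fun a b hab => hι (congrArg Subtype.val hab),
        ι.rangeRestrict_surjective⟩, Ideal.comap_top] at h1
      exact (RingHom.ker_isPrime ε).ne_top h1)
  let θ : T.R →+* B := ι.codRestrict B.toSubring fun x => hAB ⟨x, rfl⟩
  have hθi : Function.Injective θ := fun a b hab => hι (congrArg Subtype.val hab)
  have hθm : ∀ x, ε x = 0 → θ x ∈ IsLocalRing.maximalIdeal B := fun x hx =>
    ValuationSubring.coe_mem_nonunits_iff.1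
      (hB ⟨ι.rangeRestrict x, Ideal.mem_map_of_mem _ hx, rfl⟩)
  have : CharZero (IsLocalRing.ResidueField B) := charZero_of_injective_ringHom
    ((IsLocalRing.residue B).comp (θ.comp (algebraMap ℂ T.R))).injective
  have hchar : (((Matrix.reindex E E Z).map θ)).charpoly = Z.charpoly.map θ := by
    rw [Matrix.charpoly_map, Matrix.charpoly_reindex]
  have haev : Polynomial.aeval ((Matrix.reindex E E Z).map θ) (g.map θ) =
      (Matrix.reindex E E Y).map θ := by
    rw [Spec.aeval_map_matrix, ← Matrix.reindexAlgEquiv_apply T.R T.R,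
      Polynomial.aeval_algHom_apply (Matrix.reindexAlgEquiv T.R T.R E) Z g,
      Matrix.reindexAlgEquiv_apply]
  obtain ⟨h, -⟩ := Spec.semisimple_of_block (splits_valuationSubring B)
    ((Matrix.reindex E E Z).map θ) (fun a => θ (algebraMap ℂ T.R (eigen a)))
    (fun a b hab => by
      rw [← map_sub, ← map_sub]
      exact ((sub_ne_zero.2 (eigen_injective.ne hab)).isUnit.map _).map _)
    (fun x y => by
      have : ε (Z (E.symm x) (E.symm y) -
          if x = y then algebraMap ℂ T.R (eigen x.1) else 0) = 0 := by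
        have h1 : ε (Z (E.symm x) (E.symm y)) = _ := congrFun (congrFun hpt (E.symm x)) (E.symm y)
        rw [map_sub, h1, Matrix.diagonal_apply]
        by_cases hxy : x = y
        · subst hxy
          simp [hE]
        · simp [hxy]
      have := hθm _ this
      rw [map_sub, apply_ite θ, map_zero] at this
      exact this)
    (g.map θ) (hg.map θ) (by rw [hg.natDegree_map θ, hgq]; simp)
    (fun m hm => by
      rw [hchar, ← Polynomial.map_pow, ← Polynomial.map_sub, Polynomial.coeff_map]
      simp only [Fintype.card_prod, Fintype.card_fun, ZMod.card, Fintype.card_fin] at hm ⊢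
      rw [hpow m (by rwa [mul_comm] at hm), map_zero])
    (fun i a b hab => by rw [haev, Matrix.map_apply, hblock i a b hab, map_zero])
    (fun i a b => by rw [haev, Matrix.map_apply, Matrix.map_apply, hscal i a b])
  ext x y
  refine hθi ?_
  rw [haev] at h
  have := congrFun (congrFun h (E x)) (E y)
  simpa using this

/-- The coordinates with zero trace. -/
noncomputable def coords (n : ℕ) (u : Pidx n) : (S0 n).R :=
  if h : u = 0 then 0 else var ⟨u, h⟩

theorem semiInv_coords (u : Pidx n) : SemiInv (S0 n).σ (wt u) (coords n u) := by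
  rw [wt_eq_J]
  by_cases h : u = 0
  · intro i
    simp [coords, h]
  · rw [coords, dif_neg h]
    exact semiInv_var ⟨u, h⟩

theorem sigma_add (hF : FormStmt) (s k : ℕ) :
    ∃ (T : Sys ((s + k) + (s + k))) (z : Pidx (s + k) → T.R) (c : ℕ → T.R), T.e ≠ 0 ∧
      4 ^ (s + k) - 1 ≤ T.dim + 4 ^ (s + k) / 2 ^ s ∧
      z 0 = 0 ∧ (∀ g, SemiInv T.σ (J g) (z g)) ∧ Algebra.adjoin ℂ (Set.range z) = ⊤ ∧
      (∀ l, SemiInv T.σ 0 (c l)) ∧
      matOf z ^ (2 ^ s) + ∑ l ∈ Finset.range (2 ^ s), c l • matOf z ^ l = 0 := by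
  classical
  set S := S0 (s + k) with hS
  let _i : Invertible (2 : S.R) := invertibleTwo S
  let Z : Matrix (Idx (s + k)) (Idx (s + k)) S.R := matOf (coords (s + k))
  have hZ : FixedMat S Z := fixedMat_of_semiInv _ semiInv_coords
  have hr : IsUnit ((2 ^ k : ℕ) : S.R) := by
    push_cast
    exact (isUnit_of_invertible (2 : S.R)).pow k
  have hr0 : 2 ^ k ≠ 0 := by positivity
  have hd : Z.charpoly.natDegree = 2 ^ k * 2 ^ s := by
    rw [Matrix.charpoly_natDegree_eq_dim]
    simp [Idx, pow_add, mul_comm]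
  obtain ⟨hg1, hg2, hg3⟩ := Spec.rootPoly_spec (2 ^ s) (2 ^ k) hr hr0 (Matrix.charpoly_monic Z) hd
  set g := Spec.rootPoly (2 ^ s) (2 ^ k) Z.charpoly with hgdef
  have hgσ : ∀ i, g.map (S.σ i : S.R →+* S.R) = g := fun i => by
    rw [hgdef, ← Spec.rootPoly_map _ _ _ hr hr0 (Matrix.charpoly_monic Z) hd]
    exact congrArg _ (charpoly_map_fixed (isUnit_pauli (gen i)) _ Z (hZ i))
  have hY : FixedMat S (Polynomial.aeval Z g) := fun i => by
    have e := Spec.aeval_map_matrix (S.σ i : S.R →+* S.R) Z g
    rw [hgσ i] at e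
    exact (congrArg (_ * ·) e.symm).trans (semiconj_aeval (hZ i) g)
  obtain ⟨T, f, hf, he, hp, h0, hdim⟩ := exists_cut (lowS s k) hF (cutSet s k) J
    (fun u => coord u (Polynomial.aeval Z g)) (fun u hu => ⟨J_high (Finset.mem_filter.1 hu).2.2,
      wt_eq_J u ▸ hY.semiInv u⟩)
  have hev : coordIdeal (outside (lowS s k)) ≤ RingHom.ker
      (MvPolynomial.aeval fun g : Pnz (s + k) => ptCoord g.1 : S.R →ₐ[ℂ] ℂ) := by
    refine Ideal.span_le.2 ?_
    rintro _ ⟨u, hu, rfl⟩
    show MvPolynomial.aeval (fun g : Pnz (s + k) => ptCoord g.1) (MvPolynomial.X u) = 0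
    rw [MvPolynomial.aeval_X]
    exact ptCoord_eq_zero (Or.inr fun h => hu (J_low h))
  have hker := (ker_le_of_poleOrd (lowS s k) hF T f hf he hp).trans hev
  let ε : T.R →ₐ[ℂ] ℂ := (Ideal.Quotient.liftₐ (RingHom.ker f.φ)
    (MvPolynomial.aeval fun g : Pnz (s + k) => ptCoord g.1) fun y hy => hker hy).comp
      (Ideal.quotientKerAlgEquivOfSurjective hf).symm.toAlgHom
  have hε : ∀ p, ε (f.φ p) = MvPolynomial.aeval (fun g : Pnz (s + k) => ptCoord g.1) p := by
    intro p
    have : (Ideal.quotientKerAlgEquivOfSurjective hf).symm (f.φ p) = Ideal.Quotient.mk _ p := by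
      rw [AlgEquiv.symm_apply_eq]; rfl
    simp only [ε, AlgHom.comp_apply, AlgEquiv.coe_toAlgHom, this]
    rfl
  have hmat : Z.map f.φ = matOf fun u => f.φ (coords (s + k) u) := by
    ext a b
    simp [Z, matOf, Matrix.sum_apply]
  have hkill : Polynomial.aeval (Z.map f.φ) (g.map (f.φ : S.R →+* T.R)) = 0 := by
    refine kills_of_point ε _ _ (hg1.map _) (by rw [hg1.natDegree_map, hg2]) (fun m hm => ?_) ?_
      fun u hu => ?_
    · have := hg3 m hm
      rw [show (Z.map f.φ).charpoly = Z.charpoly.map (f.φ : S.R →+* T.R) from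
        Matrix.charpoly_map Z (f.φ : S.R →+* T.R), ← Polynomial.map_pow, ← Polynomial.map_sub,
        Polynomial.coeff_map, this, map_zero]
    · rw [← matOf_ptCoord]
      ext a b
      have hc : ∀ u, MvPolynomial.aeval (fun g : Pnz (s + k) => ptCoord g.1) (coords (s + k) u) =
          ptCoord u := fun u => by
        by_cases h : u = 0
        · rw [coords, dif_pos h, map_zero, ptCoord_eq_zero (Or.inl h)]
        · rw [coords, dif_neg h]; exact MvPolynomial.aeval_X _ _
      simp [Z, matOf, Matrix.sum_apply, hε, hc]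
    · have e := Spec.aeval_map_matrix (f.φ : S.R →+* T.R) Z g
      exact (congrArg (coord u) e).trans ((coord_map f u _).trans (h0 u hu))
  refine ⟨T, fun u => f.φ (coords (s + k) u), fun l => f.φ (g.coeff l), he, ?_, ?_, fun u => ?_,
    ?_, fun l => ?_, ?_⟩
  · have h4 : 4 ^ (s + k) / 2 ^ s = 2 ^ k * 2 ^ (s + k) := by
      rw [show (4 : ℕ) ^ (s + k) = 2 ^ s * (2 ^ k * 2 ^ (s + k)) by
        rw [← mul_assoc, ← pow_add, ← mul_pow]; rfl, Nat.mul_div_cancel_left _ (by positivity)]
    have hc : Fintype.card (Pnz (s + k)) = 4 ^ (s + k) - 1 := by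
      rw [Fintype.card_subtype_compl, Fintype.card_subtype_eq]
      simp [Idx, ← mul_pow]
    have := card_cutSet (s := s) (k := k)
    omega
  · simp [coords]
  · exact wt_eq_J u ▸ (semiInv_coords u).map (f.φ : S.R →+* T.R) f.equiv
  · rw [eq_top_iff]
    intro y _
    obtain ⟨p, rfl⟩ := hf y
    have h1 : p ∈ Algebra.adjoin ℂ (Set.range (coords (s + k))) := by
      have h2 : Algebra.adjoin ℂ (Set.range (var (n := s + k))) ≤
          Algebra.adjoin ℂ (Set.range (coords (s + k))) := Algebra.adjoin_mono (by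
        rintro _ ⟨u, rfl⟩
        exact ⟨u.1, by rw [coords, dif_neg u.2]⟩)
      exact h2 ((MvPolynomial.adjoin_range_X (R := ℂ) (σ := Pnz (s + k))).symm ▸ Algebra.mem_top)
    have h3 : f.φ p ∈ (Algebra.adjoin ℂ (Set.range (coords (s + k)))).map f.φ := ⟨p, h1, rfl⟩
    rwa [AlgHom.map_adjoin, ← Set.range_comp] at h3
  · intro i
    have := congrArg (fun q => Polynomial.coeff q l) (hgσ i)
    simp only [Polynomial.coeff_map] at this
    rw [show (sgn ((0 : Wt ((s + k) + (s + k))) i) : T.R) = 1 by simp [sgn], one_mul, ← f.equiv]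
    exact congrArg f.φ this
  · rw [← hmat]
    have := hkill
    rw [(hg1.map (f.φ : S.R →+* T.R)).as_sum, hg1.natDegree_map, hg2, map_add, map_pow,
      Polynomial.aeval_X, map_sum] at this
    simpa [Algebra.smul_def, Polynomial.aeval_C] using this

/-- The T-module, given independence of the semi-invariant used for cutting. -/
theorem sigmaStmt_of_form (hF : FormStmt) : SigmaStmt := fun n s hs => by
  obtain ⟨k, rfl⟩ := Nat.exists_eq_add_of_le hs
  exact sigma_add hF s k

/-- The T-module. -/
theorem sigmaStmt : SigmaStmt :=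
  sigmaStmt_of_form formStmt

end Vale.Agent.P199.Mult
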